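import Vale.Agent.P011.H738.RootF
import Vale.Agent.P011.H738.CommonF

/-!
Function fields of odd characteristic: symmetric elements of trace zero whose reduced
characteristic polynomial has a root in the completions at finitely many places which are not of
division type.
-/

set_option linter.unusedSectionVars false

open Module Matrix Topology

namespace Vale.Agent.P011.H871.U

open Vale.Agent.P011.H775 Vale.Agent.P011.H271 Vale.Agent.P011.H738

section mat

/-- The matrices of root type, with a matrix `Z` of trace one. -/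
def RTsetU (L : Type) [NontriviallyNormedField L] (Z : Matrix (Fin 3) (Fin 3) L) :
    Set (Matrix (Fin 3) (Fin 3) L) :=
  {X | ‖(X - X.trace • Z).det‖ ^ 2 < ‖(X - X.trace • Z).adjugate.trace‖ ^ 3}

theorem isOpen_RTsetU (L : Type) [NontriviallyNormedField L] (Z : Matrix (Fin 3) (Fin 3) L) :
    IsOpen (RTsetU L Z) := by
  have h1 : Continuous fun X : Matrix (Fin 3) (Fin 3) L => X - X.trace • Z :=
    continuous_id.sub (continuous_id.matrix_trace.smul continuous_const)
  exact isOpen_lt (h1.matrix_det.norm.pow 2) (h1.matrix_adjugate.matrix_trace.norm.pow 3)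

theorem mem_RTsetU {L : Type} [NontriviallyNormedField L] {Z X : Matrix (Fin 3) (Fin 3) L}
    (h1 : X.trace = 0) (h2 : X.det = 0) (h3 : X.adjugate.trace ≠ 0) : X ∈ RTsetU L Z := by
  change ‖_‖ ^ 2 < ‖_‖ ^ 3
  rw [h1, zero_smul, sub_zero, h2, norm_zero, zero_pow two_ne_zero]
  exact pow_pos (norm_pos_iff.mpr h3) 3

end mat

section loc

variable {k K D : Type} [Field k] [Field K] [StarRing K] [DivisionRing D] [StarRing D]
  [Algebra k K] [Algebra k D] [Algebra K D] [IsScalarTower k K D] [StarModule K D] {N : ℕ}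

/-- The symmetric part of trace zero. -/
noncomputable def syU (C : Cub K D) (μ : K) (c0 b : D) : D :=
  (μ • b + star (μ • b)) - C.T (μ • b + star (μ • b)) • c0

theorem star_syU [FiniteDimensional K D] [Algebra.IsCentral K D] (hD : finrank K D = 3 ^ 2)
    (C : Cub K D) (μ : K) {c0 : D} (hc0 : star c0 = c0) (b : D) :
    star (syU C μ c0 b) = syU C μ c0 b := by
  have hss : ∀ c : K, star (algebraMap K D c) = algebraMap K D (star c) := fun c => by
    rw [Algebra.algebraMap_eq_smul_one, star_smul, star_one, Algebra.algebraMap_eq_smul_one]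
  have h1 : star (μ • b + star (μ • b)) = μ • b + star (μ • b) := by
    rw [star_add, star_star, add_comm]
  rw [syU]
  set b1 := μ • b + star (μ • b) with hb1
  have h2 : star (C.T b1) = C.T b1 := by
    have h3 := (C.star_coeff hD hss b1).1
    rw [h1] at h3
    exact h3.symm
  rw [star_sub, h1, star_smul, hc0, h2]

theorem T_syU (C : Cub K D) (μ : K) {c0 : D} (hT : C.T c0 = 1) (b : D) :
    C.T (syU C μ c0 b) = 0 := by
  rw [syU, map_sub, map_smul, hT, smul_eq_mul, mul_one, sub_self]

theorem syU_add (C : Cub K D) (μ : K) (c0 a b : D) :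
    syU C μ c0 (a + b) = syU C μ c0 a + syU C μ c0 b := by
  simp only [syU]
  rw [smul_add, star_add]
  have e : μ • a + μ • b + (star (μ • a) + star (μ • b)) =
      (μ • a + star (μ • a)) + (μ • b + star (μ • b)) := by abel
  rw [e, map_add, add_smul]
  abel

/-- A symmetric element of trace one. -/
theorem exists_sym_one [FiniteDimensional K D] [Algebra.IsCentral K D]
    (hD : finrank K D = 3 ^ 2) (C : Cub K D) {μ : K} (hμ : μ + star μ = 1)
    (hT : ∃ x, C.T x ≠ 0) : ∃ c0 : D, star c0 = c0 ∧ C.T c0 = 1 := by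
  obtain ⟨x, hx⟩ := hT
  have hss : ∀ c : K, star (algebraMap K D c) = algebraMap K D (star c) := fun c => by
    rw [Algebra.algebraMap_eq_smul_one, star_smul, star_one, Algebra.algebraMap_eq_smul_one]
  refine ⟨(μ * (C.T x)⁻¹) • x + star ((μ * (C.T x)⁻¹) • x), by rw [star_add, star_star, add_comm],
    ?_⟩
  have h1 := (C.star_coeff hD hss ((μ * (C.T x)⁻¹) • x)).1
  rw [map_add, h1, map_smul, smul_eq_mul, mul_assoc, inv_mul_cancel₀ hx, mul_one, hμ]

variable {C : Cub K D}

/-- **Openness of the root type**, from a splitting over a local field. -/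
theorem exists_near_RTU [GFF k] (hA : Anis k K D 3) (C : Cub K D) (B : Basis (Fin N) k D) {μ : K}
    (hμ : μ + star μ = 1) {c0 : D} (hc0 : star c0 = c0) {v : Place k} {L : Type}
    [NontriviallyNormedField L] (φ : K →+* L)
    (hφ : ∀ c : k, ‖φ (algebraMap k K c)‖ = v.abv c) (g : D →+* Matrix (Fin 3) (Fin 3) L)
    (hg : ∀ c : K, g (algebraMap K D c) = algebraMap L _ (φ c)) {σ : D} (hσ : star σ = σ)
    (hO : g σ ∈ RTsetU L (g c0)) :
    ∃ δ : ℝ, 0 < δ ∧ ∀ b : D, (∀ i, v.abv (B.repr (b - σ) i) < δ) → RT C v (syU C μ c0 b) := by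
  have hsm : ∀ (c : K) (x : D), g (c • x) = φ c • g x := by
    intro c x
    rw [Algebra.smul_def, map_mul, hg, ← Algebra.smul_def]
  let F : D → Matrix (Fin 3) (Fin 3) L := fun b => g (μ • b + star (μ • b))
  have hFa : ∀ a b, F (a + b) = F a + F b := by
    intro a b
    change g _ = g _ + g _
    rw [← map_add, smul_add, star_add]
    congr 1
    abel
  have hFs : ∀ (c : k) (b : D), F (c • b) = φ (algebraMap k K c) • F b := by
    intro c b
    change g _ = _ • g _
    rw [← hsm, algebraMap_smul, smul_comm μ c b, H519.star_smul_of_anis hA, smul_add]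
  have hF0 : F 0 = 0 := by
    have := hFa 0 0
    rw [add_zero] at this
    exact left_eq_add.mp this
  have hFσ : F σ = g σ := by
    change g _ = g _
    rw [star_smul, hσ, ← add_smul, hμ, one_smul]
  have hFsum : ∀ (s : Finset (Fin N)) (r : Fin N → k), F (∑ i ∈ s, r i • B i) =
      ∑ i ∈ s, φ (algebraMap k K (r i)) • F (B i) := by
    intro s r
    induction s using Finset.induction_on with
    | empty => rw [Finset.sum_empty, Finset.sum_empty, hF0]
    | insert i s hi ih => rw [Finset.sum_insert hi, Finset.sum_insert hi, hFa, ih, hFs]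
  let G : (Fin N → L) → Matrix (Fin 3) (Fin 3) L := fun r => g σ + ∑ i, r i • F (B i)
  have hG : Continuous G := by
    refine continuous_const.add (continuous_finsetSum _ fun i _ => ?_)
    exact (continuous_apply i).smul continuous_const
  have hG0 : G 0 = g σ := by
    change g σ + ∑ i, (0 : Fin N → L) i • F (B i) = g σ
    simp
  have hmem : G ⁻¹' RTsetU L (g c0) ∈ 𝓝 (0 : Fin N → L) := by
    refine hG.continuousAt ((isOpen_RTsetU L (g c0)).mem_nhds ?_)
    rw [hG0]
    exact hO
  obtain ⟨δ, hδ, hball⟩ := Metric.mem_nhds_iff.mp hmem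
  refine ⟨δ, hδ, fun b hb => ?_⟩
  have hFb : F b ∈ RTsetU L (g c0) := by
    have e1 : F b = G fun i => φ (algebraMap k K (B.repr (b - σ) i)) := by
      change F b = g σ + ∑ i, φ (algebraMap k K (B.repr (b - σ) i)) • F (B i)
      rw [← hFsum, B.sum_repr, ← hFσ, ← hFa, add_sub_cancel]
    rw [e1]
    apply hball
    rw [mem_ball_zero_iff, pi_norm_lt_iff hδ]
    intro i
    rw [hφ]
    exact hb i
  -- the reduced norm and the second coefficient
  let _ : Algebra K L := φ.toAlgebra
  let f : D →ₐ[K] Matrix (Fin 3) (Fin 3) L := { g with commutes' := fun c => hg c }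
  have hcen := hA.central
  have hfd : FiniteDimensional K D := FiniteDimensional.of_finrank_pos (by
    rw [hA.finrank_eq]; norm_num)
  have hc := fun x => H511.spl_compat C hA.finrank_eq f x
  set b1 := μ • b + star (μ • b) with hb1
  have e2 : F b - (F b).trace • g c0 = f (syU C μ c0 b) := by
    change f b1 - (f b1).trace • f c0 = _
    rw [(hc b1).1, syU, ← hb1, map_sub, map_smul]
    congr 1
  have h4 : ‖(f (syU C μ c0 b)).det‖ ^ 2 < ‖(f (syU C μ c0 b)).adjugate.trace‖ ^ 3 := by
    rw [← e2]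
    exact hFb
  have hss : ∀ c : K, star (algebraMap K D c) = algebraMap K D (star c) := fun c => by
    rw [Algebra.algebraMap_eq_smul_one, star_smul, star_one, Algebra.algebraMap_eq_smul_one]
  have h5 := C.star_coeff hA.finrank_eq hss (syU C μ c0 b)
  rw [star_syU hA.finrank_eq C μ hc0] at h5
  obtain ⟨n, hn⟩ := (hA.fixed _).mp h5.2.2.symm
  obtain ⟨e, he⟩ := (hA.fixed _).mp h5.2.1.symm
  refine ⟨n, e, hn, he, ?_⟩
  rw [(hc _).2.1, (hc _).2.2.1, ← hn, ← he] at h4
  have h6 : ∀ c : k, ‖algebraMap K L (algebraMap k K c)‖ = v.abv c := hφ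
  rw [h6, h6] at h4
  rw [map_pow, map_pow]
  exact h4

open H698 H565 H800 H961 in
/-- **Elements of root type at one place.** -/
theorem exists_loc_RTU (hk : IsGlobalFunctionField k) [GFF k] (hA : Anis k K D 3) (C : Cub K D)
    (B : Basis (Fin N) k D) {μ : K} (hμ : μ + star μ = 1) {c0 : D}
    (hc0 : star c0 = c0) {v : Place k}
    (hv : v ∉ Adiv k K D) :
    ∃ (σ : D) (δ : ℝ), 0 < δ ∧ ∀ b : D, (∀ i, v.abv (B.repr (b - σ) i) < δ) →
      RT C v (syU C μ c0 b) := by
  have hcen := hA.central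
  have hsim := hA.simple
  have hfd : FiniteDimensional K D := FiniteDimensional.of_finrank_pos (by
    rw [hA.finrank_eq]; norm_num)
  rcases isEmpty_or_nonempty (K →ₐ[k] v.comp) with hs | ⟨⟨φ⟩⟩
  · obtain ⟨L, _, _, _, _, _, φ, h1, h2, h3, h4, h5, h6⟩ :=
      exists_quad_field hA.fixed hA.star_ne v hs
    obtain ⟨g, hg⟩ := splitNS hA three_ne_zero v hs L φ h1 h2 h3 h4 h5 h6
    have hne : ∃ x : L, star x ≠ x := by
      obtain ⟨x, hx⟩ := hA.star_ne
      refine ⟨φ x, fun h => hx (φ.injective ?_)⟩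
      rw [h2, h]
    obtain ⟨H, hH, hdet, hgH⟩ := H756.exists_herm three_ne_zero hA.finrank_eq hne φ h2 g hg
    have hiso := H308.isotropic hk hA.fixed hA.star_ne h1 φ h2 h3 le_rfl hH
    have hμ' : φ μ + star (φ μ) = 1 := by rw [← h2, ← map_add, hμ, map_one]
    obtain ⟨s, hs1, hs2, hs3, hs4⟩ := exists_sym_herm hμ' hH hdet hiso
    obtain ⟨σ, hσ, hσO⟩ := dense_sym_herm hA three_ne_zero h1 φ h2 h3 hg hdet hgH hs1
      ((isOpen_RTsetU L (g c0)).mem_nhds (mem_RTsetU (Z := g c0) hs2 hs3 hs4))
    obtain ⟨δ, hδ, h⟩ := exists_near_RTU hA C B hμ hc0 (v := v) φ (fun c => by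
      rw [h4, h5, norm_alg]) g hg hσ hσO
    exact ⟨σ, δ, hδ, h⟩
  · let _ : Algebra K v.comp := (φ : K →+* v.comp).toAlgebra
    obtain ⟨g⟩ := H73.exists_split_prime (E := v.comp) Nat.prime_three hA.finrank_eq
      fun h => hv ⟨φ, h⟩
    have hg : ∀ c : K, g (algebraMap K D c) = algebraMap v.comp _ (φ c) := fun c => g.commutes c
    obtain ⟨w, hw⟩ := hA.star_ne
    have := nebot_comp v
    have hspan : Submodule.span v.comp (Set.range (g : D →+* Matrix (Fin 3) (Fin 3) v.comp)) = ⊤ :=
      H519.span_range_eq_top hA.finrank_eq three_ne_zero (φ : K →+* v.comp) g hg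
    let _ := nnfPlace v
    have hM : vecMulVec (Pi.single 0 1 : Fin 3 → v.comp) (Pi.single 1 1) +
        vecMulVec (Pi.single 1 1 : Fin 3 → v.comp) (Pi.single 0 1) ∈ RTsetU v.comp (g c0) := by
      refine mem_RTsetU (Z := g c0) ?_ (det_two _ _ _ _) ?_
      · rw [trace_two]
        simp
      · rw [adj_two]
        simp
    obtain ⟨σ, hσ, hσO⟩ := dense_sym_of_span' (w := algebraMap K D w) (ω := φ w)
      (algebraMap k v.comp) (denseRange_comp v) (algebraMap k D) (fun c => by
        rw [IsScalarTower.algebraMap_apply k K D, star_algKB, (hA.fixed _).2 ⟨c, rfl⟩])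
      (fun c x => Algebra.commutes c x) (g : D →+* Matrix (Fin 3) (Fin 3) v.comp)
      (fun c => by
        rw [IsScalarTower.algebraMap_apply k K D]
        refine (hg _).trans ?_
        rw [φ.commutes, Algebra.algebraMap_eq_smul_one])
      (fun x => Algebra.commutes w x) (by
        rw [star_algKB, ← map_sub]
        exact (isUnit_iff_ne_zero.2 (sub_ne_zero.2 (Ne.symm hw))).map (algebraMap K D))
      ((hg w).trans (by rw [Algebra.algebraMap_eq_smul_one])) hspan _
      ((isOpen_RTsetU v.comp (g c0)).mem_nhds hM)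
    obtain ⟨δ, hδ, h⟩ := exists_near_RTU hA C B hμ hc0 (v := v) (φ : K →+* v.comp) (fun c => by
      change ‖φ (algebraMap k K c)‖ = _
      rw [φ.commutes, norm_alg]) (g : D →+* Matrix (Fin 3) (Fin 3) v.comp) hg hσ hσO
    exact ⟨σ, δ, hδ, h⟩

theorem syU_smul (C : Cub K D) (μ : K) {c : K} (hc : star c = c) (c0 b : D) :
    syU C μ c0 (c • b) = c • syU C μ c0 b := by
  have h1 : μ • c • b + star (μ • c • b) = c • (μ • b + star (μ • b)) := by
    rw [smul_comm μ c b, star_smul, hc, smul_add]
  rw [syU, syU, h1, map_smul, smul_sub, smul_smul, smul_eq_mul]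

theorem syU_symm (C : Cub K D) {μ : K} (hμ : μ + star μ = 1) (c0 : D) {a : D}
    (ha : star a = a) : syU C μ c0 a = a - C.T a • c0 := by
  have h1 : μ • a + star (μ • a) = a := by rw [star_smul, ha, ← add_smul, hμ, one_smul]
  rw [syU, h1]

/-- Symmetric elements of trace zero outside a line. -/
theorem exists_sym_out [FiniteDimensional K D] [Algebra.IsCentral K D]
    (hD : finrank K D = 3 ^ 2) (C : Cub K D) {μ : K} (hμ : μ + star μ = 1)
    (hfix : ∀ c : K, star c = c → ∃ c' : k, algebraMap k K c' = c) {ω : K} (hω : star ω ≠ ω)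
    {c0 : D} (hc0 : star c0 = c0) (hT : C.T c0 = 1) (a : D) :
    ∃ z : D, star z = z ∧ C.T z = 0 ∧ ∀ c : k, z ≠ c • a := by
  by_contra hcon
  push Not at hcon
  have hK : ∀ (c : k) (x : D), c • x = algebraMap k K c • x := fun c x =>
    (algebraMap_smul K c x).symm
  -- all symmetric elements are combinations of `a` and `c0`
  have h1 : ∀ b : D, star b = b → b ∈ Submodule.span K {a, c0} := by
    intro b hb
    have h2 := syU_symm C hμ c0 hb
    obtain ⟨c, hc⟩ := hcon (syU C μ c0 b) (star_syU hD C μ hc0 b) (T_syU C μ hT b)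
    rw [hc, hK, eq_sub_iff_add_eq] at h2
    rw [← h2]
    exact Submodule.add_mem _
      (Submodule.smul_mem _ _ (Submodule.subset_span (Set.mem_insert _ _)))
      (Submodule.smul_mem _ _ (Submodule.subset_span (Set.mem_insert_of_mem _ rfl)))
  -- everything is a combination of symmetric elements
  have hω' : ω - star ω ≠ 0 := sub_ne_zero.mpr (Ne.symm hω)
  have h2 : ∀ b : D, b ∈ Submodule.span K {a, c0} := by
    intro b
    -- `(ω - ω*) b = (ω b + (ω b)*) - ω* (b + b*)`
    have h3 : (ω - star ω) • b = (ω • b + star (ω • b)) - star ω • (b + star b) := by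
      rw [star_smul, sub_smul, smul_add]
      abel
    have h4 : (ω - star ω) • b ∈ Submodule.span K {a, c0} := by
      rw [h3]
      refine Submodule.sub_mem _ (h1 _ ?_) (Submodule.smul_mem _ _ (h1 _ ?_))
      · rw [star_add, star_star, add_comm]
      · rw [star_add, star_star, add_comm]
    have h5 : b = (ω - star ω)⁻¹ • (ω - star ω) • b := by
      rw [smul_smul, inv_mul_cancel₀ hω', one_smul]
    rw [h5]
    exact Submodule.smul_mem _ _ h4
  have h3 : Submodule.span K {a, c0} = ⊤ := (Submodule.eq_top_iff').mpr h2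
  have h4 : finrank K (Submodule.span K ({a, c0} : Set D)) ≤ 2 := by
    classical
    have h5 := finrank_span_finset_le_card (R := K) ({a, c0} : Finset D)
    rw [Finset.coe_insert, Finset.coe_singleton] at h5
    exact h5.trans Finset.card_le_two
  rw [h3, finrank_top, hD] at h4
  omega

end loc

section glob

variable {k K D : Type} [Field k] [Field K] [StarRing K] [DivisionRing D] [StarRing D]
  [Algebra k K] [Algebra k D] [Algebra K D] [IsScalarTower k K D] [StarModule K D] {N : ℕ}

/-- An element whose reduced trace is not zero. -/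
theorem exists_T_ne_any (hk : IsGlobalFunctionField k) [GFF k] (hA : Anis k K D 3)
    (C : Cub K D) : ∃ x : D, C.T x ≠ 0 := by
  have hcen := hA.central
  have hsim := hA.simple
  have hfd : FiniteDimensional K D := FiniteDimensional.of_finrank_pos (by
    rw [hA.finrank_eq]; norm_num)
  obtain ⟨v, -, -, φ, f, hf, -, -⟩ := H519.exists_split_place hk hA three_ne_zero ∅ 0
  have hv : v ∉ Adiv k K D := H698.notMem_Adiv hA (by norm_num) hf
  let _ : Algebra K v.comp := (φ : K →+* v.comp).toAlgebra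
  obtain ⟨g⟩ := H73.exists_split_prime (E := v.comp) Nat.prime_three hA.finrank_eq
    fun h => hv ⟨φ, h⟩
  have hg : ∀ c : K, g (algebraMap K D c) = algebraMap v.comp _ (φ c) := fun c => g.commutes c
  have hspan : Submodule.span v.comp (Set.range (g : D →+* Matrix (Fin 3) (Fin 3) v.comp)) = ⊤ :=
    H519.span_range_eq_top hA.finrank_eq three_ne_zero (φ : K →+* v.comp) g hg
  by_contra hcon
  push Not at hcon
  have h1 : Submodule.span v.comp (Set.range (g : D →+* Matrix (Fin 3) (Fin 3) v.comp)) ≤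
      LinearMap.ker (Matrix.traceLinearMap (Fin 3) v.comp v.comp) := by
    rw [Submodule.span_le]
    rintro _ ⟨x, rfl⟩
    have h2 := (H511.spl_compat C hA.finrank_eq g x).1
    rw [hcon x, map_zero] at h2
    exact h2
  rw [hspan, top_le_iff] at h1
  have h2 : (Matrix.single (0 : Fin 3) 0 (1 : v.comp)) ∈
      LinearMap.ker (Matrix.traceLinearMap (Fin 3) v.comp v.comp) := by
    rw [h1]
    exact Submodule.mem_top
  rw [LinearMap.mem_ker, Matrix.traceLinearMap_apply, Matrix.trace_single_eq_same] at h2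
  exact one_ne_zero h2

/-- **Elements of root type.** -/
theorem exists_root_typeU (hk : IsGlobalFunctionField k) [GFF k] (hA : Anis k K D 3)
    (C : Cub K D) {P : Set (Place k)} (hP : P.Finite)
    (hPT : ∀ v ∈ P, v ∉ Adiv k K D) (a1 : D) :
    ∃ a : D, star a = a ∧ C.T a = 0 ∧ C.S a ≠ 0 ∧ (∀ c : k, a ≠ c • a1) ∧
      ∀ v ∈ P, ∃ n e : k, algebraMap k K n = C.N a ∧ algebraMap k K e = C.S a ∧
        v.abv (n ^ 2) < v.abv (e ^ 3) := by
  classical
  have hcen := hA.central
  have hfd : FiniteDimensional K D := FiniteDimensional.of_finrank_pos (by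
    rw [hA.finrank_eq]; norm_num)
  have hkK : FiniteDimensional k K := (H519.quad hA.fixed hA.star_ne).1
  have hkD : FiniteDimensional k D := Module.Finite.trans K D
  obtain ⟨μ, hμ⟩ := H800.exists_trace_one hA.star_ne
  obtain ⟨c0, hc0, hc1⟩ := exists_sym_one hA.finrank_eq C hμ (exists_T_ne_any hk hA C)
  obtain ⟨v0, -, -, φ, f, hf, -, -⟩ := H519.exists_split_place hk hA three_ne_zero ∅ 0
  have hv0 : v0 ∉ Adiv k K D := H698.notMem_Adiv hA (by norm_num) hf
  let B := Module.finBasis k D
  let S : Finset (Place k) := insert v0 hP.toFinset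
  have hS : ∀ v ∈ S, v ∉ Adiv k K D := by
    intro v hv
    rcases Finset.mem_insert.mp hv with rfl | h
    · exact hv0
    · exact hPT v (hP.mem_toFinset.mp h)
  choose σ δ hδ hσ using fun v : S => exists_loc_RTU hk hA C B hμ hc0 (hS v v.2)
  obtain ⟨ε, hε, hεδ⟩ : ∃ ε : ℝ, 0 < ε ∧ ∀ v : S, ε ≤ δ v := by
    have : Nonempty S := ⟨⟨v0, Finset.mem_insert_self _ _⟩⟩
    obtain ⟨w, hw⟩ := Finite.exists_min δ
    exact ⟨δ w, hδ w, hw⟩
  choose b hb using fun i => H698.place_weak S
    (fun v => algebraMap k (v : Place k).comp (B.repr (σ v) i)) hε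
  have hb' : ∀ (v : S) i, (v : Place k).abv (b i - B.repr (σ v) i) < ε := by
    intro v i
    have h1 := hb i v
    rwa [← map_sub, norm_alg] at h1
  set y : D := ∑ i, b i • B i with hy
  have hyr : ∀ i, B.repr y i = b i := fun i => by rw [hy, B.repr_sum_self]
  -- all elements near `y` are of root type
  have key : ∀ z : D, (∀ v : S, ∀ i, (v : Place k).abv (B.repr z i) < ε) → ∀ v : S,
      RT C (v : Place k) (syU C μ c0 (y + z)) := by
    intro z hz v
    refine hσ v _ fun i => ?_
    have e : B.repr (y + z - σ v) i = (b i - B.repr (σ v) i) + B.repr z i := by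
      rw [map_sub, map_add, Finsupp.sub_apply, Finsupp.add_apply, hyr]
      ring
    rw [e]
    exact (abv_add_le _ _ _).trans_lt ((max_lt (hb' v i) (hz v i)).trans_le (hεδ v))
  have hS0 : ∀ a : D, RT C v0 a → C.S a ≠ 0 := by
    rintro a ⟨n, e, -, he, h1⟩ h0
    rw [h0, map_eq_zero] at he
    rw [he, zero_pow three_ne_zero, map_zero] at h1
    exact absurd h1 (not_lt.mpr (v0.abv.nonneg _))
  have hfin : ∀ a : D, (∀ v : S, RT C (v : Place k) a) → C.S a ≠ 0 ∧ ∀ v ∈ P, ∃ n e : k,
      algebraMap k K n = C.N a ∧ algebraMap k K e = C.S a ∧ v.abv (n ^ 2) < v.abv (e ^ 3) :=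
    fun a ha => ⟨hS0 a (ha ⟨v0, Finset.mem_insert_self _ _⟩), fun v hv =>
      ha ⟨v, Finset.mem_insert_of_mem (hP.mem_toFinset.mpr hv)⟩⟩
  set a := syU C μ c0 y with ha
  have haR : ∀ v : S, RT C (v : Place k) a := fun v => by
    have h1 := key 0 (fun v i => by
      rw [map_zero, Finsupp.zero_apply, map_zero]
      exact hε) v
    rwa [add_zero] at h1
  have has : star a = a := star_syU hA.finrank_eq C μ hc0 y
  have haT : C.T a = 0 := T_syU C μ hc1 y
  by_cases hc : ∀ c : k, a ≠ c • a1
  · exact ⟨a, has, haT, (hfin a haR).1, hc, (hfin a haR).2⟩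
  push Not at hc
  obtain ⟨c, hc⟩ := hc
  have ha0 : a ≠ 0 := by
    intro h0
    apply (hfin a haR).1
    rw [h0, Cub.S, C.adj_zero, map_zero]
  have hcc : c ≠ 0 := by
    rintro rfl
    rw [zero_smul] at hc
    exact ha0 hc
  -- a perturbation
  obtain ⟨ω, hω⟩ := hA.star_ne
  obtain ⟨z, hz, hzT, hzc⟩ := exists_sym_out (k := k) hA.finrank_eq C hμ
    (fun c h => (hA.fixed c).mp h) hω hc0 hc1 a
  obtain ⟨M, hM0, hM⟩ : ∃ M : ℝ, 0 < M ∧ ∀ v : S, ∀ i, (v : Place k).abv (B.repr z i) < M := by
    refine ⟨1 + ∑ v : S, ∑ i, (v : Place k).abv (B.repr z i), ?_, fun v i => ?_⟩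
    · have := Finset.sum_nonneg fun v (_ : v ∈ (Finset.univ : Finset S)) => Finset.sum_nonneg
        fun i (_ : i ∈ (Finset.univ : Finset (Fin (finrank k D)))) =>
          (v : Place k).abv.nonneg (B.repr z i)
      linarith
    · have h1 := Finset.single_le_sum (f := fun v : S => ∑ i, (v : Place k).abv (B.repr z i))
        (fun v _ => Finset.sum_nonneg fun i _ => (v : Place k).abv.nonneg _) (Finset.mem_univ v)
      have h2 := Finset.single_le_sum (f := fun i => (v : Place k).abv (B.repr z i))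
        (fun i _ => (v : Place k).abv.nonneg _) (Finset.mem_univ i)
      beta_reduce at h1 h2
      linarith
  obtain ⟨t, ht0, ht⟩ := exists_small_ff S (div_pos hε hM0)
  have htk : star (algebraMap k K t) = algebraMap k K t := (hA.fixed _).mpr ⟨t, rfl⟩
  have hR : ∀ v : S, RT C (v : Place k) (syU C μ c0 (y + t • z)) := by
    refine key _ fun v i => ?_
    rw [map_smul, Finsupp.smul_apply, smul_eq_mul, map_mul]
    have h1 := ht v v.2
    calc (v : Place k).abv t * (v : Place k).abv (B.repr z i)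
        ≤ ε / M * (v : Place k).abv (B.repr z i) :=
          mul_le_mul_of_nonneg_right h1.le ((v : Place k).abv.nonneg _)
      _ < ε / M * M := mul_lt_mul_of_pos_left (hM v i) (div_pos hε hM0)
      _ = ε := by field_simp
  have e1 : syU C μ c0 (y + t • z) = a + t • z := by
    rw [syU_add, ← ha, ← algebraMap_smul K t z, syU_smul C μ htk, syU_symm C hμ c0 hz, hzT,
      zero_smul, sub_zero]
  refine ⟨syU C μ c0 (y + t • z), star_syU hA.finrank_eq C μ hc0 _, T_syU C μ hc1 _, (hfin _ hR).1,
    fun c' hc' => ?_, (hfin _ hR).2⟩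
  rw [e1] at hc'
  have h5 : a1 = c⁻¹ • a := by rw [hc, smul_smul, inv_mul_cancel₀ hcc, one_smul]
  rw [h5, smul_smul] at hc'
  refine hzc (t⁻¹ * (c' * c⁻¹ - 1)) ?_
  rw [mul_smul t⁻¹ (c' * c⁻¹ - 1) a, sub_smul (c' * c⁻¹) 1 a, one_smul, ← hc',
    add_sub_cancel_left, smul_smul t⁻¹ t, inv_mul_cancel₀ ht0, one_smul]

/-- **Elements of root type**, with powers of absolute values. -/
theorem rtU (hk : IsGlobalFunctionField k) [GFF k] (hA : Anis k K D 3)
    (C : Cub K D) {P : Set (Place k)} (hP : P.Finite) (hPT : ∀ v ∈ P, v ∉ Adiv k K D) (a1 : D) :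
    ∃ a : D, star a = a ∧ C.T a = 0 ∧ C.S a ≠ 0 ∧ (∀ c : k, a ≠ c • a1) ∧
      ∀ v ∈ P, ∃ n e : k, algebraMap k K n = C.N a ∧ algebraMap k K e = C.S a ∧
        v.abv n ^ 2 < v.abv e ^ 3 := by
  obtain ⟨a, h1, h2, h4, h5, h6⟩ := exists_root_typeU hk hA C hP hPT a1
  refine ⟨a, h1, h2, h4, h5, fun v hv => ?_⟩
  obtain ⟨n, e, h7, h8, h9⟩ := h6 v hv
  rw [map_pow, map_pow] at h9
  exact ⟨n, e, h7, h8, h9⟩

end glob

end Vale.Agent.P011.H871.U
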