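import Vale.Agent.P011.H871.U.M8gU
import Vale.Agent.P011.H308.U.M8gU
import Vale.Agent.P011.H279.PartIFinal
import Vale.Agent.P011.H74.U.FinalU

/-!
# Part I over function fields of odd characteristic, final form
-/

set_option linter.unusedSectionVars false

open Module QuadraticMap TensorProduct

namespace Vale.Agent.P011.H871.U

open Vale.Agent.P011.H738 Vale.Agent.P011.H271 Vale.Agent.P011.H775 Vale.Agent.P011.H948
open Vale.Agent.P011.H305 Vale.Agent.P011.H279.V0F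
open Vale.Agent.P011.H279.M8a
open Vale.Agent.P011.H279.Asm (infinite_of_pl)
open Vale.Agent.P011.H182 (na)

variable {k K D : Type} [Field k] [Field K] [StarRing K]
  [DivisionRing D] [StarRing D] [Algebra k K] [Algebra k D] [Algebra K D] [IsScalarTower k K D]
  {d : kˣ} {s : K} {N : ℕ}

/-- The statement about the parameter quadric, from helper308's theorem. -/
theorem rhoEndU [Infinite k] (hS : SetF k K D d s)
    (hdeg : finrank K D = 3 ^ 2) (C : Cub K D) (B : Basis (Fin N) k D) {gs ys rs : D}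
    (hg : star gs = gs) (hy : star ys = ys) (hr : star rs = rs) (hT : C.T rs = 0)
    (hSr : C.S rs ≠ 0) (hSg : C.S gs ≠ 0) (hTgg : C.T (gs * gs) ≠ 0)
    (hTy : C.T (ys * rs) ≠ 0) {ι : Type} [Finite ι]
    [Nonempty ι] (A : ι → AbsoluteValue k ℝ)
    (hκ : ∀ δ : ℝ, 0 < δ → ∃ κ : k, κ ≠ 0 ∧ ∀ i, A i κ < δ) :
    RhoEndU C B d s gs ys rs A := by
  have hfin : Module.Finite k D := finite_kD hS
  have hBs : H308.U.BsU k K :=
    ⟨fun c hc => (hS.fix c).1 hc, fun c => (hS.fix _).2 ⟨c, rfl⟩, hS.rank, hS.two_ne⟩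
  have hr0 : rs ≠ 0 := by
    rintro rfl
    exact hSr (by rw [Cub.S, C.adj_zero, map_zero])
  obtain ⟨η, hη, h⟩ := H308.U.rho_endU hBs (scub hS hdeg C) B s (d := (d : k)) d.ne_zero
    (⟨hg, hy, hr, hT, hr0, hSg, hTy, hTgg, hSr⟩ : H308.U.LimU C gs ys rs) A hκ
  refine ⟨η, hη, fun lam g y r hlam hi F _ _ _ _ φ σ _ _ M hM => ?_⟩
  exact h lam g y r hlam hi F φ σ M ⟨hM.hσ, hM.a, hM.b, hM.c, hM.p, hM.g, hM.y, hM.δ, hM.d⟩

/-- **Part I over global function fields of odd characteristic.** -/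
theorem partI_ffU [GFF k] (hS : SetF k K D d s)
    (hdeg : finrank K D = 3 ^ 2) (C : Cub K D) (B : Basis (Fin N) k D) {P1 : Set (Place k)}
    (hP1 : P1.Finite) (hne : P1.Nonempty) (hA : Adiv k K D ⊆ P1) {x0 w0 : D}
    (hx0 : x0 * star x0 = 1) (hw0 : w0 * star w0 = 1) (hT0 : C.T ((x0 - 1) * w0) = 0)
    (hN1 : x0 * w0 ≠ w0 * x0) (hN3 : C.T x0 + C.T (star x0) ≠ 6) :
    ∃ ε : ℝ, 0 < ε ∧ ∀ x : D, x * star x = 1 → (∀ v ∈ P1, na B v.abv (x - x0) < ε) →
      ∃ w : D, w * star w = 1 ∧ C.T ((x - 1) * w) = 0 := by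
  refine partI_of_rhoU hS hdeg C B hP1 hne hA hx0 hw0 hT0 hN1 hN3 ?_
  intro hT gs ys rs hg hy hr hTr hSr hSg hTgg hTy
  obtain ⟨v, hv⟩ := hne
  have hinf : Infinite k := infinite_of_pl v
  have hfin : Finite (Adiv k K D) := (hP1.subset hA).to_subtype
  have hnon : Nonempty (Adiv k K D) := hT.to_subtype
  refine rhoEndU hS hdeg C B hg hy hr hTr hSr hSg hTgg hTy _ fun δ hδ => ?_
  obtain ⟨κ, h0, h1⟩ := exists_lam0 (hP1.subset hA) hδ
  exact ⟨κ, h0, fun i => h1 _ i.2⟩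

/-- **Part I**, in the form of the final assembly. -/
theorem partIU [GFF k] (hS : SetF k K D d s) (hdeg : finrank K D = 3 ^ 2) (C : Cub K D)
    (B : Basis (Fin N) k D) : H74.FinalU.PartIU C B :=
  fun _ hP1 hne hA _ _ hx0 hw0 hT0 hN1 hN3 _ _ =>
    partI_ffU hS hdeg C B hP1 hne hA hx0 hw0 hT0 hN1 hN3

end Vale.Agent.P011.H871.U
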