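import Vale.Agent.P011.H948.EtaB
import Mathlib.FieldTheory.PrimitiveElement
import Mathlib.FieldTheory.SeparableClosure

/-!
# The element `p = 1 + g / T (g²)`, and separability of the cubic field
-/

set_option linter.unusedSectionVars false

open Module Polynomial

namespace Vale.Agent.P011.H871.U

open Vale.Agent.P011.H775 Vale.Agent.P011.H948

section sep

variable {k F : Type} [Field k] [Field F] [Algebra k F] [FiniteDimensional k F]

/-- A cubic extension is separable if it has a generator with non-zero trace or second
coefficient (characteristic not two). -/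
theorem isSeparable_gen (h2 : (2 : k) ≠ 0) (hF : finrank k F = 3) {σ : F}
    (hsp : ∀ x : F, ∃ a b c : k, x = algebraMap k F a + algebraMap k F b * σ +
        algebraMap k F c * σ ^ 2) {t e n : k}
    (h : σ ^ 3 - algebraMap k F t * σ ^ 2 + algebraMap k F e * σ - algebraMap k F n = 0)
    (hte : t ≠ 0 ∨ e ≠ 0) : Algebra.IsSeparable k F := by
  have hint : IsIntegral k σ := IsIntegral.of_finite k σ
  set P : k[X] := X ^ 3 - Polynomial.C t * X ^ 2 + Polynomial.C e * X - Polynomial.C n with hP
  have hPm : P.Monic := by
    rw [hP]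
    monicity!
  have hPd : P.natDegree = 3 := by
    rw [hP]
    compute_degree!
  have hPs : aeval σ P = 0 := by
    rw [← h, hP]
    simp only [map_sub, map_add, map_mul, map_pow, aeval_X, aeval_C]
  have htop : IntermediateField.adjoin k {σ} = ⊤ := by
    rw [eq_top_iff]
    intro x _
    obtain ⟨a, b, c, rfl⟩ := hsp x
    have hσ : σ ∈ IntermediateField.adjoin k {σ} :=
      IntermediateField.mem_adjoin_simple_self k σ
    exact add_mem (add_mem (IntermediateField.algebraMap_mem _ a)
      (mul_mem (IntermediateField.algebraMap_mem _ b) hσ))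
      (mul_mem (IntermediateField.algebraMap_mem _ c) (pow_mem hσ 2))
  have hdeg : (minpoly k σ).natDegree = 3 := by
    rw [← hF]
    exact (Field.primitive_element_iff_minpoly_natDegree_eq k σ).1 htop
  have hmin : minpoly k σ = P :=
    (minpoly.unique_of_degree_le_degree_minpoly k σ hPm hPs (by
      rw [Polynomial.degree_eq_natDegree hPm.ne_zero,
        Polynomial.degree_eq_natDegree (minpoly.ne_zero hint), hPd, hdeg])).symm
  have hsep : IsSeparable k σ := by
    rw [IsSeparable, hmin]
    have hirr : Irreducible P := hmin ▸ minpoly.irreducible hint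
    refine (separable_iff_derivative_ne_zero hirr).2 fun h0 => ?_
    rcases hte with h1 | h1
    · have h3 := congrArg (fun Q => Polynomial.coeff Q 1) h0
      simp only [coeff_derivative, hP, coeff_sub, coeff_add, coeff_C_mul, coeff_X_pow, coeff_X,
        coeff_C, coeff_zero] at h3
      norm_num at h3
      exact h3.elim h1 h2
    · have h3 := congrArg (fun Q => Polynomial.coeff Q 0) h0
      simp only [coeff_derivative, hP, coeff_sub, coeff_add, coeff_C_mul, coeff_X_pow, coeff_X,
        coeff_C, coeff_zero] at h3
      norm_num at h3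
      exact h1 h3
  rw [← separableClosure.eq_top_iff, eq_top_iff]
  intro x _
  obtain ⟨a, b, c, rfl⟩ := hsp x
  have hσ : σ ∈ separableClosure k F := mem_separableClosure_iff.2 hsep
  exact add_mem (add_mem (IntermediateField.algebraMap_mem _ a)
    (mul_mem (IntermediateField.algebraMap_mem _ b) hσ))
    (mul_mem (IntermediateField.algebraMap_mem _ c) (pow_mem hσ 2))

end sep

section pU

variable {K D : Type} [Field K] [DivisionRing D] [Algebra K D] (C : Cub K D)

/-- `p = 1 + g / T (g²)`. -/
def pU (g : D) : D := 1 + (C.T (g * g))⁻¹ • g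

variable {C} {g : D}

theorem pU_comm : Commute g (pU C g) :=
  (Commute.one_right g).add_right ((Commute.refl g).smul_right _)

theorem T_mul_pU (hg : C.T g = -1) (h : C.T (g * g) ≠ 0) : C.T (g * pU C g) = 0 := by
  rw [pU, mul_add, mul_one, mul_smul_comm, map_add, map_smul, hg, smul_eq_mul,
    inv_mul_cancel₀ h, neg_add_cancel]

theorem pU_ne_zero (hg : ∀ c : K, g ≠ c • (1 : D)) : pU C g ≠ 0 := by
  intro h0
  rw [pU] at h0
  by_cases h : (C.T (g * g))⁻¹ = 0
  · rw [h, zero_smul, add_zero] at h0
    exact one_ne_zero h0
  · apply hg (-((C.T (g * g))⁻¹)⁻¹)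
    have h1 : (C.T (g * g))⁻¹ • g = -(1 : D) := (neg_eq_of_add_eq_zero_right h0).symm
    rw [neg_smul, ← smul_neg, ← h1, smul_smul, inv_mul_cancel₀ h, one_smul]

end pU

section star

variable {K D : Type} [Field K] [StarRing K] [DivisionRing D] [StarRing D] [Algebra K D]
  {C : Cub K D}

theorem pU_symm (h : SCub C) {g : D} (hg : star g = g) : star (pU C g) = pU C g := by
  rw [pU, star_add, star_one, h.smul, star_inv₀, h.T_mul_symm hg hg, hg]

end star

/-- The condition on the first element of the chart. -/
def OkG {K D : Type} [Field K] [DivisionRing D] [Algebra K D] (C : Cub K D) (g : D) : Prop :=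
  C.T (g * g) ≠ 0 ∧ C.T (C.adj (pU C g * g)) ≠ 0

end Vale.Agent.P011.H871.U
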