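import Vale.Agent.P011.H871.U.PartIU
import Vale.Agent.P011.H948.DatF

/-!
# The chart data with the twist taken from the isotropic element, odd characteristic

(Copy of `H279/DatSF.lean`.)
-/

set_option linter.unusedSectionVars false

open Module Polynomial Matrix

namespace Vale.Agent.P011.H871.U

open Vale.Agent.P011.H948 Vale.Agent.P011.H775 Vale.Agent.P011.H305 Vale.Agent.P011.H271

variable {k K D : Type} [Field k] [Field K] [StarRing K]
    [DivisionRing D] [StarRing D] [Algebra k K] [Algebra k D] [Algebra K D] [IsScalarTower k K D]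

/-- The element `r p⁻¹` has trace zero. -/
theorem T_mul_inv_pU {d : kˣ} {s : K} (hS : SetF k K D d s)
    (hdeg : finrank K D = 3 ^ 2) (C : Cub K D) {g : D} (hg : star g = g)
    (hgc : ∀ c : K, g ≠ c • (1 : D)) (hgs : C.T g ≠ 0 ∨ C.S g ≠ 0)
    {r : D} (hr : star r = r) (h1 : C.T r = 0)
    (h2 : C.T (g * r) = 0) (h3 : C.T (g * g * r) = 0) : C.T (r * (pU C g)⁻¹) = 0 := by
  obtain ⟨E, _, _, _, _, φ, σ, _, _, hσ, H, hsp⟩ := exists_cfdU hS hdeg C hg hgc hgs
  have hr' := (H279.NdF.inV_iff H hσ hsp hr).2 ⟨h1, h2, h3⟩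
  obtain ⟨e, -, hq⟩ := exists_q H hσ
  have e : φ (1 + algebraMap k E e * σ)⁻¹ = (pU C g)⁻¹ := by
    rw [map_inv₀, hq]
  rw [C.T_comm, ← e, H.T_mul_pr hr'.sy, hr'.pr0, mul_zero, map_zero, map_zero]

/-- `r` is not a multiple of `p`. -/
theorem ne_smul_pU {d : kˣ} {s : K} (hS : SetF k K D d s)
    (hdeg : finrank K D = 3 ^ 2) (C : Cub K D) {g : D} (hg : star g = g)
    (hgc : ∀ c : K, g ≠ c • (1 : D)) (hgs : C.T g ≠ 0 ∨ C.S g ≠ 0)
    {r : D} (hr : star r = r) (hr0 : r ≠ 0) (h1 : C.T r = 0)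
    (h2 : C.T (g * r) = 0) (h3 : C.T (g * g * r) = 0) (c : k) :
    r ≠ algebraMap k K c • pU C g := by
  intro h0
  obtain ⟨E, _, _, _, _, φ, σ, _, _, hσ, H, hsp⟩ := exists_cfdU hS hdeg C hg hgc hgs
  have hr' := (H279.NdF.inV_iff H hσ hsp hr).2 ⟨h1, h2, h3⟩
  obtain ⟨e, -, hq⟩ := exists_q H hσ
  have h4 : r = φ (c • (1 + algebraMap k E e * σ)) := by
    rw [map_smul, hq, h0, algebraMap_smul]
  have h5 := hr'.pr0
  rw [h4, H.pr_φ] at h5
  apply hr0
  rw [h4, h5, map_zero]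

/-- The second coefficient of `r p⁻¹`. -/
theorem S_mul_inv {K D : Type} [Field K] [DivisionRing D] [Algebra K D] (C : Cub K D) {p : D}
    (hp : p ≠ 0) (r : D) : C.N p * C.S (r * p⁻¹) = C.T (p * C.adj r) := by
  have hN := C.N_ne_zero hp
  have h1 : C.adj p⁻¹ = (C.N p)⁻¹ • p := by
    rw [C.adj_eq_inv (inv_ne_zero hp), inv_inv, C.N_inv]
  rw [Cub.S, C.adj_mul_distrib, h1, smul_mul_assoc, map_smul, smul_eq_mul, ← mul_assoc,
    mul_inv_cancel₀ hN, one_mul]

/-- **The chart attached to a unitary element and an isotropic element**, with the twist given by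
the isotropic element. -/
theorem f1SU {d : kˣ} {s : K} (hS : SetF k K D d s)
    (hdeg : finrank K D = 3 ^ 2) (C : Cub K D) : F1SU C d s := by
  intro x u hu hT
  have := hS.fin
  have := hS.cen
  have h20 : (2 : K) ≠ 0 := by
    have h := (_root_.map_ne_zero (algebraMap k K)).2 hS.two_ne
    rwa [map_ofNat] at h
  have hC := sCub_of C hdeg hS.star_smul
  have hs0 : s ≠ 0 := by
    intro h0
    have h := hS.sq
    rw [h0, zero_pow (by norm_num)] at h
    exact (_root_.map_ne_zero (algebraMap k K)).2 d.ne_zero h.symm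
  obtain ⟨g, y, hg, hy, hTg, hTy, h2, hw⟩ := hC.exists_chart h20 hs0 hS.star_s hS.sq hu hT
  refine ⟨g, y, ⟨hg, hy, hTg, hTy, h2⟩, ?_⟩
  rintro r hgc hSg ⟨hr, e1, e2, e3, e4⟩ hrS
  rw [map_zero] at e4
  have hgs : C.T g ≠ 0 ∨ C.S g ≠ 0 := Or.inl (by rw [hTg]; exact neg_ne_zero.2 one_ne_zero)
  have hr0 : r ≠ 0 := by
    rintro rfl
    exact hrS (by rw [C.adj_zero, mul_zero, map_zero])
  have hfix : ∀ c : K, star c = c → ∃ c' : k, algebraMap k K c' = c := fun c hc =>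
    (hS.fix c).1 hc
  have hkfix : ∀ c : k, star (algebraMap k K c) = algebraMap k K c := fun c =>
    (hS.fix _).2 ⟨c, rfl⟩
  have hg0 : g ≠ 0 := fun h0 => hgc 0 (by rw [h0, zero_smul])
  have hp0 : pU C g ≠ 0 := pU_ne_zero hgc
  have hps : star (pU C g) = pU C g := pU_symm hC hg
  obtain ⟨F, _, _, _, φ, σ, hF, hσ, hsp, hsy, ho, -⟩ := hC.exists_E_gen h20 hfix hkfix hp0 hps
    pU_comm (T_mul_pU hTg hSg.1) hr (ne_smul_pU hS hdeg C hg hgc hgs hr hr0 e1 e2 e3) e2 e4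
  -- separability
  have hss : ∀ c : K, star (algebraMap K D c) = algebraMap K D (star c) := fun c => by
    rw [Algebra.algebraMap_eq_smul_one, hS.star_smul, star_one,
      ← Algebra.algebraMap_eq_smul_one]
  have hsyσ : pU C g * star (φ σ) = φ σ * pU C g := hsy σ
  obtain ⟨c1, c2, c3⟩ := hC.sy_TSN hp0 hsyσ
  obtain ⟨t, ht⟩ := hfix _ c1
  obtain ⟨e, he⟩ := hfix _ c2
  obtain ⟨n, hn⟩ := hfix _ c3
  have he0 : e ≠ 0 := by
    rintro rfl
    rw [map_zero, hσ] at he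
    apply hrS
    rw [← S_mul_inv C hp0, ← he, mul_zero]
  have hsep : Algebra.IsSeparable k F := by
    refine isSeparable_gen hS.two_ne hF hsp (t := t) (e := e) (n := n) ?_ (Or.inr he0)
    apply φ.toRingHom.injective
    change φ (σ ^ 3 - algebraMap k F t * σ ^ 2 + algebraMap k F e * σ - algebraMap k F n) = φ 0
    have h := C.cayley (φ σ)
    rw [map_sub, map_add, map_sub, map_mul, map_mul, map_pow, map_pow, AlgHom.commutes,
      AlgHom.commutes, AlgHom.commutes, map_zero, ← h, ← ht, ← he, ← hn,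
      ← Algebra.smul_def, ← Algebra.smul_def, algebraMap_smul, algebraMap_smul,
      algebraMap_smul, Algebra.algebraMap_eq_smul_one, pow_succ, pow_two]
  have H : Cfd C φ (pU C g) :=
    { hD := hdeg
      hss := hss
      hfix := fun c hc => (hS.fix c).1 hc
      hfix' := hkfix
      hF := hF
      hK := hS.rank
      h2 := hS.two_ne
      hp := hps
      hp0 := hp0
      hφ := hsy }
  have htr : Algebra.trace k F σ = 0 := by
    have h5 := T_mul_inv_pU hS hdeg C hg hgc hgs hr e1 e2 e3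
    rw [← hσ, H.T_φ] at h5
    exact (_root_.map_eq_zero (algebraMap k K)).1 h5
  obtain ⟨Ω, _, _, ⟨S⟩⟩ := H.exists_dspl
  obtain ⟨M, hMp, hMg, hMy, hMδ, hMd, hMa, hMb, hMc⟩ := H.exists_datU hS.star_s hS.sq d.ne_zero
    hg hy ho hSg.2 htr (trace_bbU hF σ) (S.MM_bbU hS.two_ne htr) (S.ccU_ne hS.two_ne htr hsp)
  refine ⟨F, inferInstance, inferInstance, inferInstance, hsep, φ, σ, hS.fin, hS.cen, M,
    ⟨hF, hσ, htr, hMa, hMb, hMc, hMp, hMg, hMy, hMδ, hMd⟩, ?_⟩
  intro z hz hQ e he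
  obtain ⟨hq, hc⟩ := M.main hQ he
  have hz2 := M.x₀_ne_zero hz hc
  refine hw (algebraMap k K z.2) (M.xi z e) (hkfix _) (M.star_xi z e)
    (Or.inl ((_root_.map_ne_zero _).2 hz2)) ?_ ?_
  · rw [← hMg, ← hMy, ← hMd]
    exact hc
  · rw [← hMg, ← hMy, ← hMd]
    exact hq

end Vale.Agent.P011.H871.U
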