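import Vale.Agent.P011.H871.U.DatSU
import Vale.Agent.P011.H279.PartI
import Vale.Agent.P011.Hey.H63.Sk7

/-!
# The Skolem step of Part I over function fields of odd characteristic

(Copy of `H279/M10F.lean`.)
-/

set_option linter.unusedSectionVars false

open Module TensorProduct

namespace Vale.Agent.P011.H871.U

open Vale.Agent.P011.H738 Vale.Agent.P011.H271 Vale.Agent.P011.H775 Vale.Agent.P011.H948
open Vale.Agent.P011.H305
open Vale.Agent.P011.H279.Asm (LocPt infinite_of_pl)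
open Vale.Agent.P011.Hey.H63 (GoodF LpF)
open Vale.Agent.P011.H182 (na)

section inf

variable {k K D F : Type} [Field k] [Field K] [Field F] [StarRing K] [DivisionRing D]
  [StarRing D] [Algebra k K] [Algebra k D] [Algebra K D] [IsScalarTower k K D] [Algebra k F]
  [FiniteDimensional K D] [Algebra.IsCentral K D]
  [FiniteDimensional k F] [Algebra.IsSeparable k F] {C : Cub K D} {φ : F →ₐ[k] D}

/-- The Skolem surface at infinity has a point over any splitting field. -/
theorem exists_point_infU (M : DatU C φ) (t : F) {Ω : Type} [Field Ω] [Infinite Ω]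
    [Algebra k Ω] [Algebra K Ω] [IsScalarTower k K Ω]
    (g : D →ₐ[K] Matrix (Fin 3) (Fin 3) Ω) : ∃ f : Ω ⊗[k] F,
      Algebra.norm Ω f + Algebra.trace Ω (Ω ⊗[k] F) ((1 ⊗ₜ M.A (t, 0)) * f) +
        algebraMap k Ω (M.G (t, 0)) = 0 := by
  obtain ⟨f, hf⟩ := M.H.exists_point (M.L_inV (t, 0)) g
  refine ⟨f, ?_⟩
  have h1 := M.A_eq (t, 0)
  have h2 := M.G_eq (t, 0)
  rw [IsScalarTower.algebraMap_apply k K Ω, h1, h2]
  simpa using hf

/-- The point at infinity. -/
theorem locPt_infU [GFF k] [StarModule K D] (hA : Anis k K D 3) (M : DatU C φ) {v : Place k}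
    (hv : v ∉ Adiv k K D)
    (hp : ¬ Nonempty (F →ₐ[k] v.comp)) (t : F) : LocPt v (M.A (t, 0)) (M.G (t, 0)) := by
  obtain ⟨Ω, _, _, _, _, _, _, hΩ, ⟨g⟩⟩ := H73.exists_omega Nat.prime_three hA v hv
  have : Infinite k := infinite_of_pl v
  have : Infinite Ω := Infinite.of_injective (algebraMap k Ω) (algebraMap k Ω).injective
  have h := exists_point_infU M t g
  exact H73.Desc.descent M.H.hF (not_nonempty_iff.mp hp) hΩ _ _ h

end inf

variable {k K D : Type} [Field k] [GFF k] [Field K] [StarRing K]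
  [DivisionRing D] [StarRing D] [Algebra k K] [Algebra k D] [Algebra K D] [IsScalarTower k K D]

/-- The local condition at the places where `D` ramifies. -/
def GvU (F : Type) [Field F] [Algebra k F] (v : Place k) (A : F) (G : k) : Prop :=
  Nonempty (F →ₐ[k] v.comp) ∨ LpF F v A G

/-- **The Skolem step.** -/
theorem m10U {d : kˣ} {s : K} (hS : SetF k K D d s) (hdeg : finrank K D = 3 ^ 2) (C : Cub K D)
    {Td : Set (Place k)} (hTd : Td.Finite) (hA : Adiv k K D ⊆ Td) (v0 : Place k) :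
    M10U C d s Td (fun F => GvU F) := by
  intro F _ _ _ _ φ _ _ M hF hδ hd z hz hG
  have hst := hS.starModule
  have hAn : Anis k K D 3 := hS.anis hdeg
  obtain ⟨S₀, hS₀, hsk⟩ := Hey.H63.skolemF (F := F) hF hS.two_ne
  refine exists_of_localU M (GoodF F) (LpF F) hS₀ hsk (Hey.H63.hnearF hF hS.two_ne)
    (Hey.H63.hfarF hF hS.two_ne) hTd v0 hz.Q hz.pol hz.A hG ?_
  intro v hv
  by_cases hp : Nonempty (F →ₐ[k] v.comp)
  · exact Or.inl hp
  · exact Or.inr fun t _ => Or.inl (locPt_infU hAn M (fun h => hv (hA h)) hp t)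

/-- **Part I over function fields, from the local statement `M8U`.** -/
theorem partI_of_M8U {d : kˣ} {s : K} (hS : SetF k K D d s)
    (hdeg : finrank K D = 3 ^ 2) (C : Cub K D) {N : ℕ} (B : Basis (Fin N) k D)
    {P1 : Set (Place k)} (hP1 : P1.Finite) (hne : P1.Nonempty) {Td : Set (Place k)}
    (hTd : Td ⊆ P1) (hA : Adiv k K D ⊆ Td) {x0 : D} (h8 : M8U hS C B Td P1 (fun F => GvU F) x0) :
    ∃ ε : ℝ, 0 < ε ∧ ∀ x : D, x * star x = 1 → (∀ v ∈ P1, na B v.abv (x - x0) < ε) →
      ∃ w : D, w * star w = 1 ∧ C.T ((x - 1) * w) = 0 := by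
  obtain ⟨v0, -⟩ := hne
  have : Infinite k := infinite_of_pl v0
  exact partI_ofU hS hdeg C B hP1 hTd h8 (f1SU hS hdeg C)
    (m10U hS hdeg C (hP1.subset hTd) hA v0)

end Vale.Agent.P011.H871.U
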