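import Vale.Agent.P011.H871.U.M3U
import Vale.Agent.P011.H775.M3b

/-!
# The normal form: behaviour at infinity and along conics, in every odd characteristic
-/

set_option linter.unusedSectionVars false

open Module Polynomial Matrix

namespace Vale.Agent.P011.H775

/-- The product of a bilinear and a linear map. -/
def trip {k V W : Type} [Field k] [AddCommGroup V] [Module k V] [CommRing W] [Algebra k W]
    (f : V →ₗ[k] V →ₗ[k] W) (g : V →ₗ[k] W) : MultilinearMap k (fun _ : Fin 3 => V) W where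
  toFun v := f (v 0) (v 1) * g (v 2)
  map_update_add' {inst} v i x y := by
    obtain rfl := Subsingleton.elim inst (instDecidableEqFin 3)
    fin_cases i <;> simp [Function.update, add_mul, mul_add]
  map_update_smul' {inst} v i c x := by
    obtain rfl := Subsingleton.elim inst (instDecidableEqFin 3)
    fin_cases i <;> simp [Function.update]

theorem trip_apply {k V W : Type} [Field k] [AddCommGroup V] [Module k V] [CommRing W]
    [Algebra k W] (f : V →ₗ[k] V →ₗ[k] W) (g : V →ₗ[k] W) (z : V) :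
    trip f g (fun _ => z) = f z z * g z := rfl

variable {k K F D : Type} [Field k] [Field K] [Field F] [Algebra k K] [Algebra k F]

variable [StarRing K] [DivisionRing D] [StarRing D] [Algebra k D] [Algebra K D]
  [FiniteDimensional K D] [Algebra.IsCentral K D] [IsScalarTower k K D]
  [FiniteDimensional k F] [Algebra.IsSeparable k F]

section H

variable {C : Cub K D} {φ : F →ₐ[k] D} {p : D} (H : Cfd C φ p)

include H

/-- The norm of an element of trace zero, through an element of the field of trace one. -/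
theorem Cfd.N_of_TU {x : D} (hx : C.T x = 0) {w : F} (hw : Algebra.trace k F w = 1) :
    2 * C.N x = 2 * C.T (φ w * (x * x * x)) - C.T (x * x) * C.T (φ w * x) := by
  have h := C.cayley x
  rw [hx, zero_smul, sub_zero] at h
  have h1 := congrArg (fun z => C.T (φ w * z)) h
  simp only [mul_sub, mul_add, mul_smul_comm, mul_one, map_sub, map_add, map_smul, mul_zero,
    map_zero, smul_eq_mul, H.T_φ, hw, map_one] at h1
  have h2 := congrArg C.T (C.cr_self x)
  rw [C.T_cr, map_smul, smul_eq_mul, hx] at h2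
  have h3 : C.S x = C.T (C.adj x) := rfl
  rw [← h3] at h2
  linear_combination -2 * h1 - C.T (φ w * x) * h2

theorem Cfd.exists_tr_one : ∃ w : F, Algebra.trace k F w = 1 :=
  Algebra.trace_surjective k F 1

end H

namespace DatU

variable {C : Cub K D} {φ : F →ₐ[k] D} (M : DatU C φ)

theorem A_inf (t : F) : M.A (t, 0) = M.al * t ^ 2 := by
  rw [A]
  simp

theorem L_inf (t : F) : M.L (t, 0) = act C φ t M.h' := by
  rw [L_apply, zero_smul, par, ← actL_apply C φ M.h 0, map_zero, zero_add]
  rfl

theorem L_inf_ne {t : F} (ht : t ≠ 0) : M.L (t, 0) ≠ 0 := by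
  intro h0
  have h := M.A_eq (t, 0)
  rw [M.A_inf, h0, C.adj_zero, map_zero, zero_add] at h
  simp only [ne_eq, OfNat.ofNat_ne_zero, not_false_eq_true, zero_pow, mul_zero, map_zero,
    zero_mul] at h
  exact mul_ne_zero M.al_ne_zero (pow_ne_zero 2 ht) h

theorem G_inf (t : F) : M.G (t, 0) = Algebra.norm k t * rk k (C.N M.h') := by
  apply (algebraMap k K).injective
  rw [M.G_eq, M.L_inf, M.H.N_act t M.h'_inV, map_mul (algebraMap k K) (Algebra.norm k t),
    M.H.rk_eq M.star_N_h']
  simp

/-- A nonzero point of the parameter quadric gives `x₀ ≠ 0`. -/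
theorem x₀_ne_zero {z : F × k} (hz : z ≠ 0) {e : F}
    (hC : C.Cf (algebraMap k K M.d) M.g M.y (algebraMap k K z.2) (M.xi z e) = 0) : z.2 ≠ 0 := by
  intro h0
  have hz1 : z.1 ≠ 0 := fun h1 => hz (Prod.ext h1 h0)
  have hz' : z = (z.1, 0) := Prod.ext rfl h0
  refine C.x₀_ne_zero hC (Or.inr ?_) (by rw [h0, map_zero])
  intro hx
  rw [xi, h0, mul_zero, map_zero, zero_smul, sub_zero] at hx
  have h1 : φ e + M.L z = 0 := by
    rcases mul_eq_zero.1 hx with h | h
    · exact absurd h (inv_ne_zero M.H.hp0)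
    · exact h
  have h2 := congrArg (pr C φ) h1
  rw [map_add, M.H.pr_φ, (M.L_inV z).pr0, add_zero, map_zero] at h2
  rw [h2, map_zero, zero_add, hz'] at h1
  exact M.L_inf_ne hz1 h1

/-- The point at infinity. -/
theorem Q_inf {t : F} (ht : Algebra.trace k F t = 0) : M.Q (sh k t, 0) = 0 := by
  rw [Q_apply, M.H.e2_sh, ht, mul_zero, mul_zero, zero_mul, add_zero]

theorem norm_al : Algebra.norm k M.al =
    -(M.d * M.c) ^ 3 * Algebra.norm k (pr C φ (C.adj M.h)) := by
  rw [al, map_mul, ← map_neg, Algebra.norm_algebraMap, M.H.hF, neg_pow]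
  ring

theorem N_h'_sq : rk k (C.N M.h') ^ 2 = (M.d * M.c) ^ 3 *
    (rk k (C.N M.h) ^ 2 + 4 * Algebra.norm k (pr C φ (C.adj M.h))) := by
  apply (algebraMap k K).injective
  have h := M.H.N_twU M.hδ M.hd M.ha M.hb M.hc M.h_inV
  rw [map_pow, M.H.rk_eq M.star_N_h', map_mul, map_add, map_pow (algebraMap k K) (rk k (C.N M.h)),
    M.H.rk_eq M.star_N_h, map_mul, map_ofNat]
  exact h

/-- The discriminant at infinity. -/
theorem H_inf (t : F) : M.G (t, 0) ^ 2 + 4 * Algebra.norm k (M.A (t, 0)) =
    (M.d * M.c) ^ 3 * (rk k (C.N M.h) * Algebra.norm k t) ^ 2 := by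
  rw [M.G_inf, M.A_inf, map_mul, map_pow, M.norm_al, mul_pow, M.N_h'_sq]
  ring

/-- The cubic form `G` as a multilinear map. -/
theorem exists_Gm : ∃ m : MultilinearMap k (fun _ : Fin 3 => F × k) k,
    ∀ z, M.G z = m fun _ => z := by
  obtain ⟨w, hw⟩ := M.H.exists_tr_one
  have h2 := M.H.h2
  have h2K : (2 : K) ≠ 0 := by
    have h := (_root_.map_ne_zero (algebraMap k K)).2 h2
    rwa [map_ofNat] at h
  let TL : F × k →ₗ[k] K := (C.T.restrictScalars k).comp ((LinearMap.mulLeft k (φ w)).comp M.L)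
  let BL : F × k →ₗ[k] F × k →ₗ[k] K :=
    ((LinearMap.mul k D).compr₂ (C.T.restrictScalars k)).compl₁₂ M.L M.L
  let T3 : MultilinearMap k (fun _ : Fin 3 => F × k) K :=
    ((C.T.restrictScalars k).comp (LinearMap.mulLeft k (φ w))).compMultilinearMap
      ((MultilinearMap.mkPiAlgebraFin k 3 D).compLinearMap fun _ => M.L)
  let m : MultilinearMap k (fun _ : Fin 3 => F × k) k :=
    (rk k).compMultilinearMap (T3 - (2 : k)⁻¹ • trip BL TL) +
    (M.n * M.d) • (MultilinearMap.mkPiAlgebra k (Fin 3) k).compLinearMap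
      ![LinearMap.snd k F k, LinearMap.snd k F k,
        (rk k).comp ((C.T.restrictScalars k).comp ((LinearMap.mulLeft k M.Gp).comp M.L))] +
    (M.n * rk k M.κ₀) • (MultilinearMap.mkPiAlgebra k (Fin 3) k).compLinearMap
      fun _ => LinearMap.snd k F k
  refine ⟨m, fun z => ?_⟩
  have hT : C.T (M.L z) = 0 := by
    have h := M.H.T_mul_pr (M.L_inV z).sy 1
    rw [map_one, one_mul, one_mul, (M.L_inV z).pr0, map_zero, map_zero] at h
    exact h
  have e1 : (T3 - (2 : k)⁻¹ • trip BL TL) (fun _ => z) = C.N (M.L z) := by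
    have h := M.H.N_of_TU hT hw
    have h4 : T3 (fun _ => z) = C.T (φ w * (M.L z * M.L z * M.L z)) := by
      simp only [T3, LinearMap.compMultilinearMap_apply, MultilinearMap.compLinearMap_apply,
        MultilinearMap.mkPiAlgebraFin_apply, List.ofFn_succ, List.ofFn_zero, List.prod_cons,
        List.prod_nil, mul_one, LinearMap.comp_apply, LinearMap.mulLeft_apply,
        LinearMap.restrictScalars_apply, mul_assoc]
    have h5 : trip BL TL (fun _ => z) = C.T (M.L z * M.L z) * C.T (φ w * M.L z) := rfl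
    rw [_root_.sub_apply, _root_.smul_apply, h4, h5, Algebra.smul_def, map_inv₀, map_ofNat]
    apply mul_left_cancel₀ h2K
    rw [h, mul_sub, mul_inv_cancel_left₀ h2K]
  have e2 : rk k (algebraMap k K (M.n * M.d * z.2 ^ 2) * C.T (M.Gp * M.L z)) =
      M.n * M.d * z.2 ^ 2 * rk k (C.T (M.Gp * M.L z)) := by
    rw [← Algebra.smul_def, map_smul, smul_eq_mul]
  have e3 : rk k (algebraMap k K (M.n * z.2 ^ 3) * M.κ₀) = M.n * z.2 ^ 3 * rk k M.κ₀ := by
    rw [← Algebra.smul_def, map_smul, smul_eq_mul]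
  rw [G, map_add, map_add, e2, e3, ← e1]
  simp only [m, _root_.add_apply, _root_.smul_apply,
    LinearMap.compMultilinearMap_apply, MultilinearMap.compLinearMap_apply,
    MultilinearMap.mkPiAlgebra_apply, Fin.prod_univ_three, LinearMap.snd_apply, smul_eq_mul,
    mul_assoc]
  simp
  ring

/-- Along a parametrised conic `G` is a polynomial of degree at most six. -/
theorem exists_G_poly (a : Fin 3 → F × k) : ∃ P : k[X], P.natDegree ≤ 6 ∧
    P.coeff 6 = M.G (a 2) ∧ ∀ s : k, M.G (∑ j : Fin 3, s ^ (j : ℕ) • a j) = P.eval s := by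
  obtain ⟨m, hm⟩ := M.exists_Gm
  obtain ⟨P, hP, h6, h⟩ := exists_poly m a
  exact ⟨P, hP, by rw [h6, hm], fun s => by rw [hm, h]⟩

end DatU

end Vale.Agent.P011.H775
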