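import Vale.Agent.P011.H871.U.M3bU
import Vale.Agent.P011.H775.M3c

/-!
# Construction of the data of a chart, in every odd characteristic
-/

set_option linter.unusedSectionVars false

open Module Polynomial Matrix

namespace Vale.Agent.P011.H775

variable {k K F D : Type} [Field k] [Field K] [Field F] [Algebra k K] [Algebra k F]

/-- The second element of trace zero. -/
noncomputable def bbU (k : Type) {F : Type} [Field k] [Field F] [Algebra k F] (σ : F) : F :=
  3 * σ ^ 2 - algebraMap k F (Algebra.trace k F (σ ^ 2))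

/-- The discriminant of an element of trace zero. -/
noncomputable def ccU (k : Type) {F : Type} [Field k] [Field F] [Algebra k F] (σ : F) : k :=
  -(4 * e2 k σ ^ 3 + 27 * Algebra.norm k σ ^ 2)

theorem trace_bbU (hF : finrank k F = 3) (σ : F) : Algebra.trace k F (bbU k σ) = 0 := by
  have e : (3 : F) * σ ^ 2 = (3 : k) • σ ^ 2 := by
    rw [Algebra.smul_def, map_ofNat]
  rw [bbU, map_sub, e, map_smul, Algebra.trace_algebraMap, hF, nsmul_eq_mul, smul_eq_mul]
  push_cast
  ring

section ring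

variable [Ring D] [Algebra k D] [Algebra K D] {C : Cub K D} {φ : F →ₐ[k] D}

theorem DSpl.bbU_eq {Ω : Type} [Field Ω] [Algebra K Ω] (S : DSpl C φ Ω) (σ : F) (i : Fin 3) :
    S.σ i (bbU k σ) = 3 * S.σ i σ ^ 2 - (S.σ 0 σ ^ 2 + S.σ 1 σ ^ 2 + S.σ 2 σ ^ 2) := by
  rw [bbU, map_sub, map_mul, map_pow, map_ofNat, S.base, S.trace_eq, map_pow, map_pow, map_pow]

/-- The twist constant of `σ` and `bbU σ` is the product of the differences. -/
theorem DSpl.ccU_eq {Ω : Type} [Field Ω] [Algebra K Ω] (S : DSpl C φ Ω) (h2 : (2 : k) ≠ 0)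
    {σ : F} (hσ : Algebra.trace k F σ = 0) : algebraMap K Ω (algebraMap k K (ccU k σ)) =
      ((S.σ 0 σ - S.σ 1 σ) * (S.σ 1 σ - S.σ 2 σ) * (S.σ 2 σ - S.σ 0 σ)) ^ 2 := by
  have ht := S.trace_eq σ
  rw [hσ, map_zero, map_zero] at ht
  have e2' : S.σ 2 σ = -(S.σ 0 σ + S.σ 1 σ) := by linear_combination -ht
  simp only [ccU, map_neg, map_add, map_mul, map_pow, map_ofNat, S.e2_eq h2, S.norm_eq, e2']
  ring

theorem DSpl.MM_bbU {Ω : Type} [Field Ω] [Algebra K Ω] (S : DSpl C φ Ω) (h2 : (2 : k) ≠ 0)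
    {σ : F} (hσ : Algebra.trace k F σ = 0) :
    algebraMap k F (ccU k σ) = MM k σ (bbU k σ) := by
  apply (S.σ 0).injective
  rw [S.base, S.ccU_eq h2 hσ, S.MM0 h2, S.bbU_eq, S.bbU_eq]
  have ht := S.trace_eq σ
  rw [hσ, map_zero, map_zero] at ht
  have e2' : S.σ 2 σ = -(S.σ 0 σ + S.σ 1 σ) := by linear_combination -ht
  rw [e2']
  ring

theorem DSpl.ccU_ne {Ω : Type} [Field Ω] [Algebra K Ω] (S : DSpl C φ Ω) (h2 : (2 : k) ≠ 0)
    {σ : F} (hσ : Algebra.trace k F σ = 0)
    (hsp : ∀ x : F, ∃ a b c : k, x = algebraMap k F a + algebraMap k F b * σ +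
        algebraMap k F c * σ ^ 2) : ccU k σ ≠ 0 := by
  intro h0
  have h1 := S.ccU_eq h2 hσ
  rw [h0, map_zero, map_zero] at h1
  have hne : ∀ i j, i ≠ j → S.σ i σ ≠ S.σ j σ := by
    intro i j hij h
    apply hij
    apply S.σinj
    ext x
    obtain ⟨a, b, c, rfl⟩ := hsp x
    simp only [map_add, map_mul, map_pow, S.base, h]
  have h4 := hne 0 1 (by decide)
  have h5 := hne 1 2 (by decide)
  have h6 := hne 2 0 (by decide)
  exact (pow_ne_zero 2 (mul_ne_zero (mul_ne_zero (sub_ne_zero.2 h4) (sub_ne_zero.2 h5))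
    (sub_ne_zero.2 h6))) h1.symm

end ring

section star

variable [StarRing K] [DivisionRing D] [StarRing D] [Algebra k D] [Algebra K D]
  [FiniteDimensional K D] [Algebra.IsCentral K D] [IsScalarTower k K D]
  [FiniteDimensional k F] [Algebra.IsSeparable k F]

variable {C : Cub K D} {φ : F →ₐ[k] D} {p : D}

/-- The data of a chart exist. -/
theorem Cfd.exists_datU (H : Cfd C φ p) {δ : K} (hδ : star δ = -δ) {d : k}
    (hd : δ ^ 2 = algebraMap k K d) (d0 : d ≠ 0) {g y : D}
    (hg : star g = g) (hy : star y = y) (horth : ∀ x, C.T (p * g * φ x) = 0)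
    (hne : C.T (C.adj (p * g)) ≠ 0) {a b : F} {c : k} (ha : Algebra.trace k F a = 0)
    (hb : Algebra.trace k F b = 0) (hc : algebraMap k F c = MM k a b) (c0 : c ≠ 0) :
    ∃ M : DatU C φ, M.p = p ∧ M.g = g ∧ M.y = y ∧ M.δ = δ ∧ M.d = d ∧ M.a = a ∧ M.b = b ∧
      M.c = c := by
  have hsyp : Sy p p := by
    change p * star p = p * p
    rw [H.hp]
  obtain ⟨n, hn⟩ := H.exists_N hsyp
  have hsy : Sy p (p * g) := by
    change p * star (p * g) = p * g * p
    rw [star_mul, hg, H.hp, mul_assoc]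
  have hpr : pr C φ (p * g) = 0 := by
    by_contra h0
    have hnd := traceForm_nondegenerate k F
    have h1 : ∀ f : F, Algebra.traceForm k F (pr C φ (p * g)) f = 0 := fun f => by
      rw [Algebra.traceForm_apply, mul_comm]
      apply (algebraMap k K).injective
      rw [← H.T_mul_pr hsy, C.T_comm, horth, map_zero]
    exact h0 (hnd.1 _ h1)
  refine ⟨{ p := p, g := g, y := y, δ := δ, d := d, n := n, a := a, b := b, c := c, H := H,
            hδ := hδ, hd := hd, d0 := d0, hn := hn.symm, ha := ha, hb := hb, hc := hc, c0 := c0,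
            hg := hg, hy := hy, prh := hpr, prh0 := fun h0 => hne ?_ },
    rfl, rfl, rfl, rfl, rfl, rfl, rfl, rfl⟩
  have h1 := H.T_mul_pr (H.adj_sy hsy) 1
  rw [map_one, one_mul, one_mul, h0, map_zero, map_zero] at h1
  exact h1

end star

end Vale.Agent.P011.H775
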