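import Vale.Agent.P011.H871.U.StarU
import Vale.Agent.P011.H279.M8bF

/-!
# Unitary elements whose chart is close to infinity, odd characteristic

(Copy of the parts of `H279/M8aF.lean` and `H279/M8bF.lean` which use the number three.)
-/

set_option linter.unusedSectionVars false

open Module Filter Topology

namespace Vale.Agent.P011.H871.U

open Vale.Agent.P011.H738 Vale.Agent.P011.H271 Vale.Agent.P011.H775 Vale.Agent.P011.H948
open Vale.Agent.P011.H305 Vale.Agent.P011.H279.V0F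
open Vale.Agent.P011.H279.TnA Vale.Agent.P011.H279.M8a Vale.Agent.P011.H279.M8b
open Vale.Agent.P011.H182 (na na_zero na_nonneg na_smul na_add_le na_neg na_pos)

variable {k K D : Type} [Field k] [Field K] [StarRing K]
  [DivisionRing D] [StarRing D] [Algebra k K] [Algebra k D] [Algebra K D] [IsScalarTower k K D]
  {d : kˣ} {s : K} {N : ℕ}

section alg

/-- The trace form is non-degenerate. -/
theorem eq_zero_of_TU (C : Cub K D) (hT : ∃ z, C.T z ≠ 0) {a : D}
    (h : ∀ e, C.T (a * e) = 0) : a = 0 := by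
  by_contra ha
  obtain ⟨z, hz⟩ := hT
  have h1 := h (a⁻¹ * z)
  rw [← mul_assoc, mul_inv_cancel₀ ha, one_mul] at h1
  exact hz h1

theorem exists_T_pairU (C : Cub K D) (hTn : ∃ z, C.T z ≠ 0) {m m' : D} (hm' : m' ≠ 0)
    (hm : ∀ α : K, m ≠ α • m') (c : K) : ∃ e, C.T (m * e) = c ∧ C.T (m' * e) = 0 := by
  have h1 : ∃ e1, C.T (m' * e1) ≠ 0 := by
    by_contra hcon
    push Not at hcon
    exact hm' (eq_zero_of_TU C hTn hcon)
  obtain ⟨e1, he1⟩ := h1
  have h2 : ∃ e0, C.T (m' * e0) = 0 ∧ C.T (m * e0) ≠ 0 := by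
    by_contra hcon
    push Not at hcon
    set α : K := C.T (m * e1) / C.T (m' * e1) with hα
    apply hm α
    rw [← sub_eq_zero]
    apply eq_zero_of_TU C hTn
    intro e
    have h3 := hcon (e - (C.T (m' * e) / C.T (m' * e1)) • e1) (by
      rw [mul_sub, mul_smul_comm, map_sub, map_smul, smul_eq_mul, div_mul_cancel₀ _ he1, sub_self])
    rw [mul_sub, mul_smul_comm, map_sub, map_smul, smul_eq_mul] at h3
    rw [sub_mul, smul_mul_assoc, map_sub, map_smul, smul_eq_mul, hα]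
    field_simp at h3 ⊢
    linear_combination h3
  obtain ⟨e0, h3, h4⟩ := h2
  refine ⟨(c / C.T (m * e0)) • e0, ?_, ?_⟩
  · rw [mul_smul_comm, map_smul, smul_eq_mul, div_mul_cancel₀ _ h4]
  · rw [mul_smul_comm, map_smul, h3, smul_zero]

/-- A skew element with prescribed trace against `m`. -/
theorem exists_skewU (hS : SetF k K D d s) (hdeg : finrank K D = 3 ^ 2)
    (C : Cub K D) (hTn : ∃ z, C.T z ≠ 0) {m : D}
    (hind : ∀ a b : K, a • m + b • star m = 0 → a = 0 ∧ b = 0) (c : K) :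
    ∃ b, star b = -b ∧ C.T (m * b) = c := by
  have hs0 : star m ≠ 0 := by
    intro h0
    have := (hind 0 1 (by rw [h0, zero_smul, smul_zero, add_zero])).2
    exact one_ne_zero this
  obtain ⟨e, he, he'⟩ := exists_T_pairU C hTn hs0 (m := m) (fun α h => by
    have := (hind 1 (-α) (by rw [one_smul, neg_smul, ← h, add_neg_cancel])).1
    exact one_ne_zero this) c
  refine ⟨e - star e, by rw [star_sub, star_star, neg_sub], ?_⟩
  have h := scub hS hdeg C
  have h1 : C.T (m * star e) = 0 := by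
    have h2 : m * star e = star (e * star m) := by rw [star_mul, star_star]
    rw [h2, h.T, C.T_comm, he', star_zero]
  rw [mul_sub, map_sub, he, h1, sub_zero]

end alg

/-- **The unitary element `u1`.** -/
theorem exists_u1U [GFF k] (hS : SetF k K D d s) (hdeg : finrank K D = 3 ^ 2) (C : Cub K D)
    (hTn : ∃ z, C.T z ≠ 0)
    (B : Basis (Fin N) k D) {x0 w0 : D} (hw0 : w0 * star w0 = 1)
    (hT0 : C.T ((x0 - 1) * w0) = 0)
    (hind : ∀ a b : K, a • ((x0 - 1) * w0) + b • star ((x0 - 1) * w0) = 0 → a = 0 ∧ b = 0)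
    {κ : K} (hκ : κ ≠ 0) {P1 : Set (Place k)} (hP1 : P1.Finite)
    {η : ℝ} (hη : 0 < η) :
    ∃ (u1 : D) (lam : k) (ε : ℝ), u1 * star u1 = 1 ∧ lam ≠ 0 ∧ 0 < ε ∧ ∀ v ∈ P1,
      v.abv lam < η ∧ na B v.abv (u1 - w0) < η ∧ ∀ x u : D,
      na B v.abv (x - x0) < ε → na B v.abv (u - u1) < ε →
      C.T ((x - 1) * u) ≠ 0 ∧
      na B v.abv (Gf C lam x u - (κ • ((x0 - 1) * w0) + star (κ • ((x0 - 1) * w0)))) < η ∧
      na B v.abv (Yf C s lam x u -
        s⁻¹ • (κ • ((x0 - 1) * w0) - star (κ • ((x0 - 1) * w0)))) < η := by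
  classical
  have h20 := two_neK hS
  have h2D : (2 : D) ≠ 0 := by
    have h := (_root_.map_ne_zero (algebraMap K D)).2 h20
    rwa [map_ofNat] at h
  set m : D := (x0 - 1) * w0 with hm
  obtain ⟨b, hb, hTb⟩ := exists_skewU hS hdeg C hTn hind (-(1 / (2 * κ)))
  obtain ⟨lam, hlam0, hlam⟩ := exists_lam hP1
  have hlb : ∀ j, star (lam j • b) = -(lam j • b) := fun j => by
    rw [star_smul_k hS, hb, smul_neg]
  set u : ℕ → D := fun j => w0 * cy (lam j • b) with hu
  have huu : ∀ j, u j * star (u j) = 1 := fun j => by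
    rw [hu]
    simp only [star_mul]
    calc w0 * cy (lam j • b) * (star (cy (lam j • b)) * star w0)
        = w0 * (cy (lam j • b) * star (cy (lam j • b))) * star w0 := by simp only [mul_assoc]
      _ = 1 := by rw [cy_mul_star h2D (hlb j), mul_one, hw0]
  -- the limits at one place
  have hlim : ∀ v ∈ P1, Tn B v.abv atTop (fun j => lam j • b) 0 ∧
      Tn B v.abv atTop (fun j => lam j • (1 : D)) 0 := by
    intro v hv
    have h0 : Tendsto (fun j => v.abv (lam j - 0)) atTop (𝓝 0) := by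
      simpa only [sub_zero] using hlam v hv
    constructor
    · have := Tn.smul (B := B) h0 b
      rwa [zero_smul] at this
    · have := Tn.smul (B := B) h0 (1 : D)
      rwa [zero_smul] at this
  have hlimu : ∀ v ∈ P1, Tn B v.abv atTop u w0 := by
    intro v hv
    have h1 := tn_cy h2D (hlim v hv).1 (by rw [star_zero, neg_zero])
    have h2 := (Tn.const (B := B) (q := v.abv) (l := atTop) w0).mul h1
    rwa [cy_zero, mul_one] at h2
  set t : ℕ → K := fun j => C.T (m * (b * (1 + lam j • b)⁻¹)) with ht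
  have hTu : ∀ j, C.T ((x0 - 1) * u j) = -(2 * (algebraMap k K (lam j) * t j)) := by
    intro j
    have h1 : (1 : D) + lam j • b ≠ 0 := (one_pm_ne h2D (hlb j)).1
    have e1 : (x0 - 1) * u j = m + m * (cy (lam j • b) - 1) := by
      rw [hu, hm]
      simp only
      noncomm_ring
    have e2 : m * (cy (lam j • b) - 1) =
        -((2 : K) • (lam j • (m * (b * (1 + lam j • b)⁻¹)))) := by
      rw [cy_sub_one h1, mul_neg]
      congr 1
      rw [two_smul, two_mul, mul_add, smul_mul_assoc, mul_smul_comm]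
    rw [e1, e2, map_add, hT0, zero_add, map_neg, map_smul, T_smul_k, smul_eq_mul]
  have htlim : ∀ v ∈ P1, Tn B v.abv atTop (fun j => t j • (1 : D)) (C.T (m * b) • (1 : D)) := by
    intro v hv
    have h1 : Tn B v.abv atTop (fun j => m * (b * (1 + lam j • b)⁻¹)) (m * b) := by
      have h2 := ((Tn.const (B := B) (q := v.abv) (l := atTop) (1 : D)).add
        (hlim v hv).1).inv (by rw [add_zero]; exact one_ne_zero)
      have h3 := (Tn.const (B := B) (q := v.abv) (l := atTop) m).mul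
        ((Tn.const (B := B) (q := v.abv) (l := atTop) b).mul h2)
      rwa [add_zero, inv_one, mul_one] at h3
    exact tn_T C h1
  have hTb0 : C.T (m * b) ≠ 0 := by
    rw [hTb]
    exact neg_ne_zero.2 (one_div_ne_zero (mul_ne_zero h20 hκ))
  -- the normalised element
  have hZ : ∀ j, lam j • Zf C x0 (u j) = ((-(2 : K)) • (t j • (1 : D)))⁻¹ * ((x0 - 1) * u j) := by
    intro j
    have hl : algebraMap k K (lam j) ≠ 0 := (_root_.map_ne_zero _).2 (hlam0 j)
    by_cases h0 : t j = 0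
    · rw [Zf, hTu, h0]
      simp
    · have e : ((-(2 : K)) • (t j • (1 : D)))⁻¹ = (-(2 * t j))⁻¹ • (1 : D) := by
        apply inv_eq_of_mul_eq_one_right
        rw [smul_smul, smul_mul_smul_comm, mul_one]
        have : -(2 : K) * t j * (-(2 * t j))⁻¹ = 1 := by
          have h2 : (2 : K) * t j ≠ 0 := mul_ne_zero h20 h0
          field_simp
        rw [this, one_smul]
      rw [e, smul_mul_assoc, one_mul, Zf, hTu, ← algebraMap_smul K (lam j), smul_smul]
      congr 1
      field_simp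
  have hZlim : ∀ v ∈ P1, Tn B v.abv atTop (fun j => lam j • Zf C x0 (u j)) (κ • m) := by
    intro v hv
    simp only [hZ]
    have h1 := tn_smulK (-(2 : K)) (htlim v hv)
    have hne : (-(2 : K)) • (C.T (m * b) • (1 : D)) ≠ 0 :=
      smul_ne_zero (neg_ne_zero.2 h20) (smul_ne_zero hTb0 one_ne_zero)
    have h2 := (h1.inv hne).mul
      ((Tn.const (B := B) (q := v.abv) (l := atTop) (x0 - 1)).mul (hlimu v hv))
    have e : ((-(2 : K)) • (C.T (m * b) • (1 : D)))⁻¹ * ((x0 - 1) * w0) = κ • m := by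
      have e' : ((-(2 : K)) • (C.T (m * b) • (1 : D)))⁻¹ = κ • (1 : D) := by
        apply inv_eq_of_mul_eq_one_right
        rw [smul_smul, smul_mul_smul_comm, mul_one, hTb]
        have : -(2 : K) * -(1 / (2 * κ)) * κ = 1 := by field_simp
        rw [this, one_smul]
      rw [e', smul_mul_assoc, one_mul, hm]
    rwa [e] at h2
  have hG : ∀ v ∈ P1, Tn B v.abv atTop (fun j => Gf C (lam j) x0 (u j))
      (κ • m + star (κ • m)) := by
    intro v hv
    have h := ((hZlim v hv).add (tn_star' hS (hZlim v hv))).sub (hlim v hv).2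
    rwa [sub_zero] at h
  have hY : ∀ v ∈ P1, Tn B v.abv atTop (fun j => Yf C s (lam j) x0 (u j))
      (s⁻¹ • (κ • m - star (κ • m))) := by
    intro v hv
    exact tn_smulK s⁻¹ ((hZlim v hv).sub (tn_star' hS (hZlim v hv)))
  -- choice of the index
  have hev : ∀ᶠ j in atTop, ∀ v ∈ P1, v.abv (lam j) < η ∧
      na B v.abv (u j - w0) < η ∧ t j ≠ 0 ∧
      na B v.abv (Gf C (lam j) x0 (u j) - (κ • m + star (κ • m))) < η ∧
      na B v.abv (Yf C s (lam j) x0 (u j) - s⁻¹ • (κ • m - star (κ • m))) < η := by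
    rw [Filter.eventually_all_finite hP1]
    intro v hv
    have h1 := (hlam v hv).eventually_lt_const hη
    have h2 := (hlimu v hv).ev_lt hη
    have h3 := (htlim v hv).ev_ne (b := 0) (smul_ne_zero hTb0 one_ne_zero)
    have h4 := (hG v hv).ev_lt hη
    have h5 := (hY v hv).ev_lt hη
    filter_upwards [h1, h2, h3, h4, h5] with j a1 a2 a3 a4 a5
    refine ⟨a1, a2, fun h0 => a3 (by rw [h0, zero_smul]), a4, a5⟩
  obtain ⟨j, hj⟩ := hev.exists
  -- the neighbourhood
  obtain ⟨ε, hε, hεv⟩ := exists_bound hP1 (P := fun v ε => ∀ x u' : D,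
      na B v.abv (x - x0) < ε → na B v.abv (u' - u j) < ε →
      C.T ((x - 1) * u') ≠ 0 ∧
      na B v.abv (Gf C (lam j) x u' - (κ • m + star (κ • m))) < η ∧
      na B v.abv (Yf C s (lam j) x u' - s⁻¹ • (κ • m - star (κ • m))) < η) (by
    intro v hv
    obtain ⟨b1, b2, b3, b4, b5⟩ := hj v hv
    have hT : C.T ((x0 - 1) * u j) ≠ 0 := by
      rw [hTu]
      exact neg_ne_zero.2 (mul_ne_zero h20 (mul_ne_zero
        ((_root_.map_ne_zero _).2 (hlam0 j)) b3))
    have f1 := nb_fst B v.abv (x0, u j)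
    have f2 := nb_snd B v.abv (x0, u j)
    have f3 : Tn B v.abv (nb B v.abv (x0, u j)) (fun y => (y.1 - 1) * y.2)
        ((x0 - 1) * u j) := (f1.sub (Tn.const 1)).mul f2
    have f4 := (tn_T C f3).ev_ne (b := 0) (smul_ne_zero hT one_ne_zero)
    have f5 := ((tn_Gf hS C (lam := lam j) f1 f2 hT).sub
      (Tn.const (κ • m + star (κ • m)))).ev_small b4
    have f6 := ((tn_Yf hS C (lam := lam j) f1 f2 hT).sub
      (Tn.const (s⁻¹ • (κ • m - star (κ • m))))).ev_small b5
    obtain ⟨θ, hθ, h⟩ := ev_nb B v.abv (f4.and (f5.and f6))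
    refine ⟨θ / 2, by positivity, fun ε hε hεθ x u' hx hu' => ?_⟩
    have h7 := h (x, u') (by
      rw [na2]
      change na B v.abv (x - x0) + na B v.abv (u' - u j) < θ
      linarith)
    exact ⟨fun h0 => h7.1 (by simp only [h0, zero_smul]), h7.2.1, h7.2.2⟩)
  exact ⟨u j, lam j, ε, huu j, hlam0 j, hε, fun v hv =>
    ⟨(hj v hv).1, (hj v hv).2.1, hεv v hv⟩⟩

/-- `p` in the scaled letters. -/
def pX (C : Cub K D) (e g : D) : D := 1 + e * ((C.T (g * g))⁻¹ • g)

theorem pX_eq (C : Cub K D) {lam : k} (hl : lam ≠ 0) (g : D) :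
    pX C (lam • (1 : D)) (lam • g) = pU C g := by
  have hl' : algebraMap k K lam ≠ 0 := (_root_.map_ne_zero _).2 hl
  have e1 : C.T (lam • g * lam • g) = algebraMap k K lam ^ 2 * C.T (g * g) := by
    rw [smul_mul_smul_comm, T_smul_k, map_mul, pow_two]
  rw [pX, pU, e1, smul_mul_assoc, one_mul, ← algebraMap_smul K lam g, smul_smul,
    ← algebraMap_smul K lam, smul_smul]
  congr 2
  rw [mul_inv]
  field_simp

theorem tn_pX {B : Basis (Fin N) k D} {q : AbsoluteValue k ℝ} {X : Type} {l : Filter X}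
    (C : Cub K D) {e f : X → D} {g : D} (he : Tn B q l e 0) (hf : Tn B q l f g)
    (hg : C.T (g * g) ≠ 0) : Tn B q l (fun y => pX C (e y) (f y)) 1 := by
  have h1 := (((hf.mul hf).T C).inv hg).smul hf
  have h2 := (Tn.const (B := B) (q := q) (l := l) (1 : D)).add (he.mul h1)
  rwa [zero_mul, add_zero] at h2

/-- **Consequences of being close to the limit direction.** -/
theorem good_of_nearU (hS : SetF k K D d s) (C : Cub K D) (B : Basis (Fin N) k D)
    (q : AbsoluteValue k ℝ) {gs : D} (hgs : ∀ c : K, gs ≠ c • (1 : D)) (hSg : C.S gs ≠ 0)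
    (hTgg : C.T (gs * gs) ≠ 0) :
    ∃ η : ℝ, 0 < η ∧ ∀ (lam : k) (g : D), lam ≠ 0 → q lam < η →
      na B q (lam • g - gs) < η → (∀ c : K, g ≠ c • (1 : D)) ∧ OkG C g := by
  have h20 := two_neK hS
  have := hS.cen
  -- an element which does not commute with the limit
  obtain ⟨a, ha⟩ : ∃ a, gs * a - a * gs ≠ 0 := by
    by_contra hcon
    push Not at hcon
    have h1 : gs ∈ Subalgebra.center K D := by
      rw [Subalgebra.mem_center_iff]
      intro a
      exact (sub_eq_zero.1 (hcon a)).symm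
    rw [Algebra.IsCentral.center_eq_bot K D, Algebra.mem_bot] at h1
    obtain ⟨c, hc⟩ := h1
    exact hgs c (by rw [← hc, Algebra.algebraMap_eq_smul_one])
  set l := nb B q ((0 : D), gs) with hl
  have f1 : Tn B q l (fun y => y.1) 0 := nb_fst B q _
  have f2 : Tn B q l (fun y => y.2) gs := nb_snd B q _
  have f3 : ∀ᶠ y in l, y.2 * a - a * y.2 ≠ 0 :=
    ((f2.mul (Tn.const a)).sub ((Tn.const a).mul f2)).ev_ne ha
  have f4 : ∀ᶠ y in l, C.T (y.2 * y.2) ≠ 0 := ((f2.mul f2).T C).ev_ne hTgg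
  have f5 : ∀ᶠ y in l, C.S (pX C y.1 y.2 * y.2) ≠ 0 := by
    have h := ((tn_pX C f1 f2 hTgg).mul f2).S C h20
    rw [one_mul] at h
    exact h.ev_ne hSg
  obtain ⟨θ, hθ, h⟩ := ev_nb B q (f3.and (f4.and f5))
  have hB1 := na_nonneg B q (1 : D)
  refine ⟨min (θ / 2) (θ / (2 * (na B q 1 + 1))), by positivity, ?_⟩
  intro lam g hlam0 hlam hg
  obtain ⟨h3, h4, h5⟩ := h (lam • (1 : D), lam • g) (by
    rw [na2]
    change na B q (lam • (1 : D) - 0) + na B q (lam • g - gs) < θ
    rw [sub_zero, na_smul]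
    have e1 := hlam.trans_le (min_le_right _ _)
    have e2 := hg.trans_le (min_le_left _ _)
    have e3 : q lam * na B q 1 ≤ θ / 2 := by
      calc q lam * na B q 1 ≤ θ / (2 * (na B q 1 + 1)) * na B q 1 :=
            mul_le_mul_of_nonneg_right e1.le hB1
        _ ≤ θ / 2 := by
          rw [div_mul_eq_mul_div, div_le_div_iff₀ (by positivity) (by norm_num)]
          nlinarith
    linarith)
  simp only at h3 h4 h5
  refine ⟨?_, ?_, ?_⟩
  · intro c hc
    apply h3
    simp only [hc]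
    rw [smul_mul_assoc, mul_smul_comm, smul_mul_assoc, mul_smul_comm, one_mul, mul_one, sub_self]
  · intro h0
    apply h4
    rw [smul_mul_smul_comm, T_smul_k, h0, mul_zero]
  · intro h0
    apply h5
    rw [pX_eq C hlam0, mul_smul_comm, ← algebraMap_smul K lam, C.S_smul, Cub.S, h0, mul_zero]

/-- The discriminant does not vanish. -/
theorem Dl_ne_zeroU (hS : SetF k K D d s) (hdeg : finrank K D = 3 ^ 2)
    (C : Cub K D) {g : D} (hg : star g = g) (hgc : ∀ c : K, g ≠ c • (1 : D))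
    (hgs : C.T g ≠ 0 ∨ C.S g ≠ 0) : Dl C g ≠ 0 := by
  obtain ⟨E, _, _, _, _, φ, σ, _, _, hσ, H, hsp⟩ := exists_cfdU hS hdeg C hg hgc hgs
  have hE : finrank k E = 3 := H.hF
  have hspan : ⊤ ≤ Submodule.span k (Set.range ![(1 : E), σ, σ ^ 2]) := by
    intro x _
    obtain ⟨a, b, c, rfl⟩ := hsp x
    have h1 : ∀ i : Fin 3, (![(1 : E), σ, σ ^ 2]) i ∈
        Submodule.span k (Set.range ![(1 : E), σ, σ ^ 2]) := fun i =>
      Submodule.subset_span (Set.mem_range_self i)
    have e0 : algebraMap k E a + algebraMap k E b * σ + algebraMap k E c * σ ^ 2 =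
        a • (1 : E) + b • σ + c • σ ^ 2 := by
      rw [Algebra.smul_def, Algebra.smul_def, Algebra.smul_def, mul_one]
    rw [e0]
    exact add_mem (add_mem (Submodule.smul_mem _ _ (h1 0)) (Submodule.smul_mem _ _ (h1 1)))
      (Submodule.smul_mem _ _ (h1 2))
  let b : Basis (Fin 3) k E := basisOfTopLeSpanOfCardEqFinrank ![(1 : E), σ, σ ^ 2] hspan
    (by rw [hE, Fintype.card_fin])
  have hb : ∀ i, b i = (![(1 : E), σ, σ ^ 2]) i := fun i => by
    simp only [b, coe_basisOfTopLeSpanOfCardEqFinrank]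
  have h1 := Algebra.discr_not_zero_of_basis k b
  rw [Algebra.discr_def, Matrix.det_fin_three] at h1
  have htr : ∀ i j, algebraMap k K (Algebra.traceMatrix k b i j) =
      C.T (φ ((![(1 : E), σ, σ ^ 2]) i) * φ ((![(1 : E), σ, σ ^ 2]) j)) := by
    intro i j
    rw [Algebra.traceMatrix_apply, Algebra.traceForm_apply, hb, hb, ← map_mul, H.T_φ]
  intro h0
  apply h1
  apply (algebraMap k K).injective
  simp only [map_sub, map_add, map_mul, htr, map_zero]
  have e1 : C.T (1 : D) = 3 := C.T_one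
  simp only [Matrix.cons_val_zero, Matrix.cons_val_one, Matrix.cons_val, map_one, map_pow, hσ,
    mul_one, one_mul, e1]
  have e2 : g ^ 2 = g * g := pow_two g
  have e3 : g * (g * g) = g * g * g := (mul_assoc g g g).symm
  have e4 : g * g * (g * g) = g * g * g * g := by simp only [mul_assoc]
  rw [e2, e3, e4]
  rw [Dl] at h0
  linear_combination h0

/-- A second vector with non-zero polar form. -/
theorem exists_yrU (hS : SetF k K D d s) (hdeg : finrank K D = 3 ^ 2)
    (C : Cub K D) {gs rs : D} (hg : star gs = gs) (hgc : ∀ c : K, gs ≠ c • (1 : D))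
    (hgs : C.T gs ≠ 0 ∨ C.S gs ≠ 0)
    (hr : star rs = rs ∧ C.T rs = 0 ∧ C.T (gs * rs) = 0 ∧ C.T (gs * gs * rs) = 0)
    (hr0 : rs ≠ 0) : ∃ yr : D, (star yr = yr ∧ C.T yr = 0 ∧ C.T (gs * yr) = 0 ∧
      C.T (gs * gs * yr) = 0) ∧ C.T (gs * C.cr rs yr) ≠ 0 := by
  obtain ⟨E, _, _, _, _, φ, σ, _, _, hσ, H, hsp⟩ := exists_cfdU hS hdeg C hg hgc hgs
  have hσ0 : σ ≠ 0 := by
    rintro rfl
    exact hgc 0 (by rw [← hσ, map_zero, zero_smul])
  obtain ⟨r', hr', h⟩ := nondeg_of_cfdU H hσ0 ((H279.NdF.inV_iff H hσ hsp hr.1).2 hr.2) hr0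
  have hr's : star r' = r' := by
    have : 1 * star r' = r' * 1 := hr'.sy
    rwa [one_mul, mul_one] at this
  refine ⟨r', ⟨hr's, (H279.NdF.inV_iff H hσ hsp hr's).1 hr'⟩, ?_⟩
  rw [← hσ]
  exact h

/-- **The continuity of the isotropic part**, any field with `2 ≠ 0`, `3 ≠ 0`, any absolute
value. -/
theorem r_rawU (hS : SetF k K D d s) (hdeg : finrank K D = 3 ^ 2)
    (C : Cub K D) (B : Basis (Fin N) k D) (q : AbsoluteValue k ℝ) {gs rs yr : D}
    (hg : star gs = gs) (hgc : ∀ c : K, gs ≠ c • (1 : D)) (hgs : C.T gs ≠ 0 ∨ C.S gs ≠ 0)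
    (hTgg : C.T (gs * gs) ≠ 0)
    (hr : star rs = rs ∧ C.T rs = 0 ∧ C.T (gs * rs) = 0 ∧ C.T (gs * gs * rs) = 0)
    (hy : star yr = yr ∧ C.T yr = 0 ∧ C.T (gs * yr) = 0 ∧ C.T (gs * gs * yr) = 0)
    (h0 : C.T (gs * C.adj rs) = 0) (hP : C.T (gs * C.cr rs yr) ≠ 0) {η' : ℝ} (hη' : 0 < η') :
    ∃ η : ℝ, 0 < η ∧ ∀ (lam : k) (g : D), lam ≠ 0 → q lam < η → star g = g →
      na B q (lam • g - gs) < η → ∀ z1 y1 : D, z1 = prj C (lam • g) rs →
      y1 = prj C (lam • g) yr →
      (star z1 = z1 ∧ C.T z1 = 0 ∧ C.T (g * z1) = 0 ∧ C.T (g * g * z1) = 0) ∧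
      (star y1 = y1 ∧ C.T y1 = 0 ∧ C.T (g * y1) = 0 ∧ C.T (g * g * y1) = 0) ∧
      ∀ Q1 Q2 P : k, algebraMap k K Q1 = C.T (g * pU C g * pU C g * C.adj z1) →
        algebraMap k K Q2 = C.T (g * pU C g * pU C g * C.adj y1) →
        algebraMap k K P = C.T (g * pU C g * pU C g * C.cr z1 y1) →
        P ≠ 0 ∧ q (Q1 * Q2) < q P ^ 2 ∧ ∀ r : D, (∃ t : k, q t ≤ q (Q1 / P) ∧
          na B q (r - z1 - t • y1) < η) → na B q (r - rs) < η' := by
  have h20 := two_neK hS
  have hgs0 : gs ≠ 0 := fun h0 => hgc 0 (by rw [h0, zero_smul])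
  have hD := Dl_ne_zeroU hS hdeg C hg hgc hgs
  have hn1 : 0 < na B q (1 : D) := na_pos B q one_ne_zero
  set l := nb B q ((0 : D), gs) with hl
  have f1 : Tn B q l (fun y => y.1) 0 := nb_fst B q _
  have f2 : Tn B q l (fun y => y.2) gs := nb_snd B q _
  have fP : Tn B q l (fun y => pX C y.1 y.2) (1 : D) := tn_pX C f1 f2 hTgg
  have fG : Tn B q l (fun y => y.2 * pX C y.1 y.2 * pX C y.1 y.2) (gs * 1 * 1) :=
    (f2.mul fP).mul fP
  have fz : Tn B q l (fun y => prj C y.2 rs) rs := by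
    have := tn_prj C f2 hD rs
    rwa [prj_of_orth C hr.2.1 hr.2.2.1 hr.2.2.2] at this
  have fy : Tn B q l (fun y => prj C y.2 yr) yr := by
    have := tn_prj C f2 hD yr
    rwa [prj_of_orth C hy.2.1 hy.2.2.1 hy.2.2.2] at this
  have e9 : ∀ z : D, C.T (gs * 1 * 1 * z) = C.T (gs * z) := by
    intro z
    rw [mul_one, mul_one]
  have F1 : TK B q l (fun y => C.T (y.2 * pX C y.1 y.2 * pX C y.1 y.2 *
      C.adj (prj C y.2 rs))) 0 := by
    have := (fG.mul (fz.adj C h20)).T C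
    rwa [e9, h0] at this
  obtain ⟨c2, F2⟩ : ∃ c, TK B q l (fun y => C.T (y.2 * pX C y.1 y.2 *
      pX C y.1 y.2 * C.adj (prj C y.2 yr))) c := ⟨_, (fG.mul (fy.adj C h20)).T C⟩
  obtain ⟨c3, hc3, F3⟩ : ∃ c, c ≠ 0 ∧ TK B q l (fun y => C.T (y.2 * pX C y.1 y.2 *
      pX C y.1 y.2 * C.cr (prj C y.2 rs) (prj C y.2 yr))) c := by
    refine ⟨C.T (gs * C.cr rs yr), hP, ?_⟩
    have := (fG.mul (fz.cr C h20 fy)).T C
    rwa [e9] at this
  -- the constants
  have hmc : 0 < na B q (c3 • (1 : D)) := na_pos B q (smul_ne_zero hc3 one_ne_zero)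
  obtain ⟨m, hm⟩ : ∃ m, m = na B q (c3 • (1 : D)) / 2 := ⟨_, rfl⟩
  have hm0 : 0 < m := by rw [hm]; positivity
  obtain ⟨M, hM⟩ : ∃ M, M = na B q (c2 • (1 : D)) + 1 := ⟨_, rfl⟩
  have hM0 : 0 < M := by rw [hM]; have := na_nonneg B q (c2 • (1 : D)); positivity
  obtain ⟨M1, hM1⟩ : ∃ M1, M1 = na B q yr + 1 := ⟨_, rfl⟩
  have hM10 : 0 < M1 := by rw [hM1]; have := na_nonneg B q yr; positivity
  have hθ1 : 0 < m ^ 2 / M := by positivity
  have hθ2 : 0 < m * (η' / 3) / M1 := by positivity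
  have g1 : ∀ᶠ y in l, na B q (C.T (y.2 * pX C y.1 y.2 * pX C y.1 y.2 *
      C.adj (prj C y.2 rs)) • (1 : D)) < min (m ^ 2 / M) (m * (η' / 3) / M1) :=
    Tn.ev_small F1 (by rw [zero_smul, na_zero]; exact lt_min hθ1 hθ2)
  have g2 : ∀ᶠ y in l, na B q (C.T (y.2 * pX C y.1 y.2 * pX C y.1 y.2 *
      C.adj (prj C y.2 yr)) • (1 : D)) < M := Tn.ev_small F2 (by rw [hM]; linarith)
  have g3 : ∀ᶠ y in l, m < na B q (C.T (y.2 * pX C y.1 y.2 * pX C y.1 y.2 *
      C.cr (prj C y.2 rs) (prj C y.2 yr)) • (1 : D)) := by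
    filter_upwards [Tn.ev_lt F3 hm0] with y hy
    have h5 := na_add_le B q (c3 • (1 : D) - C.T (y.2 * pX C y.1 y.2 *
      pX C y.1 y.2 * C.cr (prj C y.2 rs) (prj C y.2 yr)) • (1 : D))
      (C.T (y.2 * pX C y.1 y.2 *
      pX C y.1 y.2 * C.cr (prj C y.2 rs) (prj C y.2 yr)) • (1 : D))
    rw [sub_add_cancel, ← na_neg B q (c3 • (1 : D) - _), neg_sub] at h5
    linarith
  have g4 : ∀ᶠ y in l, na B q (prj C y.2 yr) < M1 := Tn.ev_small fy (by rw [hM1]; linarith)
  have g5 : ∀ᶠ y in l, na B q (prj C y.2 rs - rs) < η' / 3 := fz.ev_lt (by positivity)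
  have g6 : ∀ᶠ y in l, Dl C y.2 ≠ 0 := (tk_Dl C f2).ev_ne hD
  obtain ⟨θ, hθ, hev⟩ := ev_nb B q (g1.and (g2.and (g3.and (g4.and (g5.and g6)))))
  have hB1 := na_nonneg B q (1 : D)
  refine ⟨min (min (θ / 2) (θ / (2 * (na B q 1 + 1)))) (η' / 3), by positivity, ?_⟩
  intro lam g hlam0 hlam hgs hgn z1 y1 hz1 hy1
  obtain ⟨a1, a2, a3, a4, a5, a6⟩ := hev (lam • (1 : D), lam • g) (by
    rw [na2]
    change na B q (lam • (1 : D) - 0) + na B q (lam • g - gs) < θ
    rw [sub_zero, na_smul]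
    have e1 := hlam.trans_le ((min_le_left _ _).trans (min_le_right _ _))
    have e2 := hgn.trans_le ((min_le_left _ _).trans (min_le_left _ _))
    have e3 : q lam * na B q 1 ≤ θ / 2 := by
      calc q lam * na B q 1 ≤ θ / (2 * (na B q 1 + 1)) * na B q 1 :=
            mul_le_mul_of_nonneg_right e1.le hB1
        _ ≤ θ / 2 := by
          rw [div_mul_eq_mul_div, div_le_div_iff₀ (by positivity) (by norm_num)]
          nlinarith
    linarith)
  simp only [← hz1, ← hy1] at a1 a2 a3 a4 a5 a6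
  have hl0 : algebraMap k K lam ≠ 0 := (_root_.map_ne_zero _).2 hlam0
  have hlg : star (lam • g) = lam • g := by rw [star_smul_k hS, hgs]
  have hg0 : g ≠ 0 := by
    rintro rfl
    rw [smul_zero] at a6
    apply a6
    rw [Dl]
    simp
  -- membership
  have hmem : ∀ R : D, star R = R → (star (prj C (lam • g) R) = prj C (lam • g) R ∧
      C.T (prj C (lam • g) R) = 0 ∧ C.T (g * prj C (lam • g) R) = 0 ∧
      C.T (g * g * prj C (lam • g) R) = 0) := by
    intro R hR
    obtain ⟨b1, b2, b3⟩ := T_prj C R a6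
    refine ⟨star_T hS hdeg C hlg hR, b1, ?_, ?_⟩
    · rw [smul_mul_assoc, T_smul_k] at b2
      exact (mul_eq_zero.1 b2).resolve_left hl0
    · rw [smul_mul_smul_comm, smul_mul_assoc, T_smul_k, map_mul] at b3
      exact (mul_eq_zero.1 b3).resolve_left (mul_ne_zero hl0 hl0)
  refine ⟨by rw [hz1]; exact hmem rs hr.1, by rw [hy1]; exact hmem yr hy.1, ?_⟩
  intro Q1 Q2 P hQ1 hQ2 hPP
  have hpp : pX C (lam • (1 : D)) (lam • g) = pU C g := pX_eq C hlam0 g
  have hF : ∀ z : D, C.T (lam • g * pX C (lam • (1 : D)) (lam • g) *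
      pX C (lam • (1 : D)) (lam • g) * z) = algebraMap k K lam * C.T (g * pU C g * pU C g * z) := by
    intro z
    rw [hpp, smul_mul_assoc, smul_mul_assoc, smul_mul_assoc, T_smul_k]
  rw [hF, ← hQ1, ← map_mul, na_k, map_mul] at a1
  rw [hF, ← hQ2, ← map_mul, na_k, map_mul] at a2
  rw [hF, ← hPP, ← map_mul, na_k, map_mul] at a3
  obtain ⟨n, hn⟩ : ∃ n, n = na B q (1 : D) := ⟨_, rfl⟩
  rw [← hn] at a1 a2 a3 hn1
  have hql : 0 < q lam := q.pos hlam0
  have hqP : 0 < q P := by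
    rcases (AbsoluteValue.nonneg q P).lt_or_eq with h | h
    · exact h
    · rw [← h, mul_zero, zero_mul] at a3
      exact absurd (hm0.trans a3) (lt_irrefl _)
  have hq1 := AbsoluteValue.nonneg q Q1
  have hq2 := AbsoluteValue.nonneg q Q2
  refine ⟨fun h => by rw [h, map_zero] at hqP; exact lt_irrefl _ hqP, ?_, ?_⟩
  · rw [map_mul]
    have b1 := a1.trans_le (min_le_left _ _)
    rw [lt_div_iff₀ hM0] at b1
    have hln : 0 < q lam * n := by positivity
    have e1 : q lam * q Q1 * n * (q lam * q Q2 * n) ≤ q lam * q Q1 * n * M :=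
      mul_le_mul_of_nonneg_left a2.le (by positivity)
    have e2 : m ^ 2 < (q lam * q P * n) ^ 2 := pow_lt_pow_left₀ a3 hm0.le two_ne_zero
    have e3 : (q lam * n) ^ 2 * (q Q1 * q Q2) < (q lam * n) ^ 2 * q P ^ 2 := by
      calc (q lam * n) ^ 2 * (q Q1 * q Q2) = q lam * q Q1 * n * (q lam * q Q2 * n) := by ring
        _ ≤ q lam * q Q1 * n * M := e1
        _ < m ^ 2 := b1
        _ < (q lam * q P * n) ^ 2 := e2
        _ = _ := by ring
    exact lt_of_mul_lt_mul_left e3 (by positivity)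
  · rintro r ⟨t, ht, hrt⟩
    have b1 := a1.trans_le (min_le_right _ _)
    rw [lt_div_iff₀ hM10] at b1
    have e1 : q t * na B q y1 ≤ η' / 3 := by
      rw [map_div₀] at ht
      have e2 : q t * q P ≤ q Q1 := by
        rw [le_div_iff₀ hqP] at ht
        exact ht
      have hy0 := na_nonneg B q y1
      have ht0 := AbsoluteValue.nonneg q t
      have e3 : q t * m ≤ q lam * q Q1 * n := by
        calc q t * m ≤ q t * (q lam * q P * n) := mul_le_mul_of_nonneg_left a3.le ht0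
          _ = (q t * q P) * (q lam * n) := by ring
          _ ≤ q Q1 * (q lam * n) := mul_le_mul_of_nonneg_right e2 (by positivity)
          _ = _ := by ring
      have e4 : q t * na B q y1 * m ≤ η' / 3 * m := by
        calc q t * na B q y1 * m = (q t * m) * na B q y1 := by ring
          _ ≤ (q lam * q Q1 * n) * na B q y1 := mul_le_mul_of_nonneg_right e3 hy0
          _ ≤ (q lam * q Q1 * n) * M1 := mul_le_mul_of_nonneg_left a4.le (by positivity)
          _ ≤ m * (η' / 3) := b1.le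
          _ = _ := by ring
      exact le_of_mul_le_mul_right e4 hm0
    have e5 : r - rs = (r - z1 - t • y1) + (z1 - rs) + t • y1 := by abel
    rw [e5]
    have h6 := na_add_le B q (r - z1 - t • y1 + (z1 - rs)) (t • y1)
    have h7 := na_add_le B q (r - z1 - t • y1) (z1 - rs)
    rw [na_smul] at h6
    have h8 := hrt.trans_le (min_le_right _ _)
    linarith

end Vale.Agent.P011.H871.U
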