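import Vale.Agent.P011.H279.NdF
import Vale.Agent.P011.H871.U.PpU

/-!
# The orthogonal complement of a cubic field of symmetric elements, odd characteristic

The quadratic form `r ↦ T (c adj r)` on `k(g)^⊥` is non-degenerate for every non-zero
`c` in `k(g)`; two of them are proportional only if the `c` are.
-/

set_option linter.unusedSectionVars false

open Module Polynomial Matrix

namespace Vale.Agent.P011.H871.U

open Vale.Agent.P011.H948 Vale.Agent.P011.H775 Vale.Agent.P011.H305
open Vale.Agent.P011.H279.NdF (inV_iff act_ne_zero)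

variable {k K D : Type} [Field k] [Field K] [StarRing K]
    [DivisionRing D] [StarRing D] [Algebra k K] [Algebra k D] [Algebra K D] [IsScalarTower k K D]

/-- The field generated by a non-central symmetric element with non-zero trace or second
coefficient. -/
theorem exists_cfdU {d : kˣ} {s : K} (hS : SetF k K D d s)
    (hdeg : finrank K D = 3 ^ 2) (C : Cub K D) {g : D} (hg : star g = g)
    (hgc : ∀ c : K, g ≠ c • (1 : D)) (hgs : C.T g ≠ 0 ∨ C.S g ≠ 0) :
    ∃ (E : Type) (_ : Field E) (_ : Algebra k E) (_ : FiniteDimensional k E)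
      (_ : Algebra.IsSeparable k E) (φ : E →ₐ[k] D)
      (σ : E) (_ : FiniteDimensional K D) (_ : Algebra.IsCentral K D), φ σ = g ∧
      Cfd C φ 1 ∧ ∀ x : E, ∃ a b c : k, x = algebraMap k E a + algebraMap k E b * σ +
        algebraMap k E c * σ ^ 2 := by
  have := hS.fin
  have := hS.cen
  have hfix : ∀ c : K, star c = c → ∃ c' : k, algebraMap k K c' = c := fun c hc =>
    (hS.fix c).1 hc
  have hkfix : ∀ c : k, star (algebraMap k K c) = algebraMap k K c := fun c =>
    (hS.fix _).2 ⟨c, rfl⟩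
  have hss : ∀ c : K, star (algebraMap K D c) = algebraMap K D (star c) := fun c => by
    rw [Algebra.algebraMap_eq_smul_one, hS.star_smul, star_one,
      ← Algebra.algebraMap_eq_smul_one]
  obtain ⟨c1, c2, c3⟩ := C.star_coeff hdeg hss g
  rw [hg] at c1 c2 c3
  obtain ⟨t, ht⟩ := hfix _ c1.symm
  obtain ⟨e, he⟩ := hfix _ c2.symm
  obtain ⟨n, hn⟩ := hfix _ c3.symm
  obtain ⟨E, _, _, _, φ, σ, hE, hσ, hsp⟩ := exists_field (k := k) C ht.symm he.symm hn.symm (by
    intro c hc
    apply hgc (algebraMap k K c)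
    rw [hc, IsScalarTower.algebraMap_apply k K D, Algebra.algebraMap_eq_smul_one])
  have hsep : Algebra.IsSeparable k E := by
    refine isSeparable_gen hS.two_ne hE hsp (t := t) (e := e) (n := n) ?_ ?_
    · apply φ.toRingHom.injective
      change φ (σ ^ 3 - algebraMap k E t * σ ^ 2 + algebraMap k E e * σ - algebraMap k E n) = φ 0
      have h := C.cayley g
      rw [map_sub, map_add, map_sub, map_mul, map_mul, map_pow, map_pow, AlgHom.commutes,
        AlgHom.commutes, AlgHom.commutes, hσ, map_zero, ← h, ← ht, ← he, ← hn,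
        ← Algebra.smul_def, ← Algebra.smul_def, algebraMap_smul, algebraMap_smul,
        algebraMap_smul, Algebra.algebraMap_eq_smul_one, pow_succ, pow_two]
    · rcases hgs with h | h
      · left
        rintro rfl
        exact h (by rw [← ht, map_zero])
      · right
        rintro rfl
        exact h (by rw [← he, map_zero])
  refine ⟨E, inferInstance, inferInstance, inferInstance, hsep, φ, σ, hS.fin, hS.cen, hσ, ?_, hsp⟩
  exact
    { hD := hdeg
      hss := hss
      hfix := fun c hc => (hS.fix c).1 hc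
      hfix' := hkfix
      hF := hE
      hK := hS.rank
      h2 := hS.two_ne
      hp := star_one D
      hp0 := one_ne_zero
      hφ := by
        intro x
        obtain ⟨a, b, c, rfl⟩ := hsp x
        have hc1 : ∀ c : k, star (algebraMap k D c) = algebraMap k D c := fun c => by
          rw [IsScalarTower.algebraMap_apply k K D, hss, hkfix]
        change 1 * star _ = _ * 1
        rw [one_mul, mul_one, map_add, map_add, map_mul, map_mul, map_pow, hσ, AlgHom.commutes,
          AlgHom.commutes, AlgHom.commutes, star_add, star_add, star_mul, star_mul, star_pow, hg,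
          hc1, hc1, hc1, ← Algebra.commutes b g, ← Algebra.commutes c (g ^ 2)] }

section field

variable {E : Type} [Field E] [Algebra k E] [FiniteDimensional k E]
  [Algebra.IsSeparable k E] {C : Cub K D}
  {φ : E →ₐ[k] D} [FiniteDimensional K D] [Algebra.IsCentral K D]

theorem star_φ1 (H : Cfd C φ 1) (x : E) : star (φ x) = φ x := by
  have h : 1 * star (φ x) = φ x * 1 := H.hφ x
  rwa [one_mul, mul_one] at h

theorem star_of_sy1 {v : D} (hv : Sy (1 : D) v) : star v = v := by
  have h : 1 * star v = v * 1 := hv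
  rwa [one_mul, mul_one] at h

theorem sy1_of_star {v : D} (hv : star v = v) : Sy (1 : D) v := by
  change 1 * star v = v * 1
  rw [one_mul, mul_one, hv]

theorem T_star (H : Cfd C φ 1) (x : D) : C.T (star x) = star (C.T x) :=
  (C.star_coeff H.hD H.hss x).1

/-- The trace form is non-degenerate on the complement. -/
theorem exists_T_neU (H : Cfd C φ 1) {v : D} (hv : InV C φ 1 v) (hv0 : v ≠ 0) :
    ∃ r : D, InV C φ 1 r ∧ C.T (v * r) ≠ 0 := by
  have hvs : star v = v := star_of_sy1 hv.sy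
  obtain ⟨e, he⟩ := Algebra.trace_surjective k E 1
  have h2K : (2 : K) ≠ 0 := by
    have h := (_root_.map_ne_zero (algebraMap k K)).2 H.h2
    rwa [map_ofNat] at h
  set y : D := v⁻¹ * φ e + star (v⁻¹ * φ e) with hy
  have hys : star y = y := by
    rw [hy, star_add, star_star, add_comm]
  have hvy : C.T (v * y) = 2 := by
    have e1 : C.T (v * (v⁻¹ * φ e)) = 1 := by
      rw [← mul_assoc, mul_inv_cancel₀ hv0, one_mul, H.T_φ, he, map_one]
    have e2 : v * star (v⁻¹ * φ e) = star (v⁻¹ * φ e * v) := by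
      rw [star_mul (v⁻¹ * φ e), hvs]
    rw [hy, mul_add, map_add, e1, e2, T_star H, C.T_comm, e1, star_one]
    norm_num
  refine ⟨y - φ (pr C φ y), ⟨(sy1_of_star hys).sub (H.hφ _), by rw [map_sub, H.pr_φ, sub_self]⟩,
    ?_⟩
  have e1 : C.T (v * φ (pr C φ y)) = 0 := by
    rw [C.T_comm, H.T_mul_pr hv.sy, hv.pr0, mul_zero, map_zero, map_zero]
  rw [mul_sub, map_sub, e1, sub_zero, hvy]
  exact h2K

/-- **Non-degeneracy** of the form attached to a non-zero element of the field. -/
theorem nondeg_of_cfdU (H : Cfd C φ 1) {c : E} (hc : c ≠ 0) {r : D} (hr : InV C φ 1 r)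
    (hr0 : r ≠ 0) : ∃ r' : D, InV C φ 1 r' ∧ C.T (φ c * C.cr r r') ≠ 0 := by
  obtain ⟨r', hr', h⟩ := exists_T_neU H (H.act_inV c hr) (act_ne_zero H hc hr hr0)
  refine ⟨r', hr', ?_⟩
  have h1 : C.T (C.cr (φ c) r * r') = C.T (φ c * C.cr r r') := C.T_cr_mul _ _ _
  have hT : ∀ x : E, C.T (φ x * r) = 0 := fun x => by
    rw [H.T_mul_pr hr.sy, hr.pr0, mul_zero, map_zero, map_zero]
  have h2 : C.cr (φ c) r = -act C φ c r := by
    have e1 := hT 1
    rw [map_one, one_mul] at e1
    rw [Cub.cr, act, hT c, e1]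
    simp only [zero_smul, mul_zero, sub_zero, add_zero]
    abel
  rw [← h1, h2, neg_mul, map_neg]
  exact neg_ne_zero.2 h

/-- The value is fixed by the involution. -/
theorem star_T_cr (H : Cfd C φ 1) (c : E) {r r' : D} (hr : InV C φ 1 r) (hr' : InV C φ 1 r') :
    star (C.T (φ c * C.cr r r')) = C.T (φ c * C.cr r r') :=
  H.star_T_mul (H.hφ c) (H.cr_sy hr.sy hr'.sy)

/-- Independence of the forms attached to independent elements. -/
theorem exists_indep (H : Cfd C φ 1) {c1 c2 : E} (hc : ∀ t : k, c1 ≠ t • c2) (hc2 : c2 ≠ 0)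
    {r : D} (hr : InV C φ 1 r) (hr0 : r ≠ 0) :
    ∃ v : D, InV C φ 1 v ∧ C.T (φ c2 * C.cr r v) = 0 ∧ C.T (φ c1 * C.cr r v) ≠ 0 := by
  obtain ⟨v1, hv1, h1⟩ := nondeg_of_cfdU H hc2 hr hr0
  by_contra hcon
  push Not at hcon
  obtain ⟨a, ha⟩ : ∃ a : k, algebraMap k K a = C.T (φ c1 * C.cr r v1) :=
    ⟨_, H.rk_eq (star_T_cr H c1 hr hv1)⟩
  obtain ⟨b, hb⟩ : ∃ b : k, algebraMap k K b = C.T (φ c2 * C.cr r v1) :=
    ⟨_, H.rk_eq (star_T_cr H c2 hr hv1)⟩
  have hb0 : b ≠ 0 := by
    rintro rfl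
    exact h1 (by rw [← hb, map_zero])
  have hne : c1 - (a / b) • c2 ≠ 0 := sub_ne_zero.2 (hc _)
  obtain ⟨v, hv, h⟩ := nondeg_of_cfdU H hne hr hr0
  apply h
  obtain ⟨m, hm⟩ : ∃ m : k, algebraMap k K m = C.T (φ c2 * C.cr r v) :=
    ⟨_, H.rk_eq (star_T_cr H c2 hr hv)⟩
  have hcrs : ∀ (t : k) (w : D), C.cr r (t • w) = t • C.cr r w := fun t w => by
    rw [← algebraMap_smul K t w, C.cr_smul_right, algebraMap_smul]
  have hTs : ∀ (t : k) (w : D), C.T (t • w) = algebraMap k K t * C.T w := fun t w => by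
    rw [← algebraMap_smul K t w, map_smul, smul_eq_mul]
  have hw : InV C φ 1 (v + (-(m / b)) • v1) := H.inV_add hv (H.inV_smul _ hv1)
  have h2 := hcon _ hw (by
    rw [C.cr_add_right, mul_add, map_add, hcrs, mul_smul_comm, hTs, ← hb, ← hm, ← map_mul,
      ← map_add]
    have : m + -(m / b) * b = 0 := by field_simp; ring
    rw [this, map_zero])
  rw [C.cr_add_right, mul_add, map_add, hcrs, mul_smul_comm, hTs, ← ha] at h2
  have e1 : φ (c1 - (a / b) • c2) * C.cr r v = φ c1 * C.cr r v - (a / b) • (φ c2 * C.cr r v) := by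
    rw [map_sub, map_smul, sub_mul, smul_mul_assoc]
  rw [e1, map_sub, hTs, ← hm]
  have e2 : C.T (φ c1 * C.cr r v) = algebraMap k K (m / b * a) := by
    rw [eq_neg_of_add_eq_zero_left h2, ← map_mul, ← map_neg]
    congr 1
    ring
  rw [e2, ← map_mul, ← map_sub]
  have : m / b * a - a / b * m = 0 := by ring
  rw [this, map_zero]

/-- The element `p` in the field. -/
theorem exists_q (H : Cfd C φ 1) {g : D} {σ : E} (hσ : φ σ = g) : ∃ e : k,
    (C.T (g * g))⁻¹ = algebraMap k K e ∧ φ (1 + algebraMap k E e * σ) = pU C g := by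
  have h1 : star (C.T (g * g)) = C.T (g * g) := by
    rw [← hσ, ← map_mul]
    exact (H.star_coeff (H.hφ _)).1
  obtain ⟨t, ht⟩ : ∃ t : k, algebraMap k K t = C.T (g * g) := ⟨_, H.rk_eq h1⟩
  refine ⟨t⁻¹, by rw [map_inv₀, ht], ?_⟩
  rw [map_add, map_one, map_mul, AlgHom.commutes, hσ, pU, ← ht, ← map_inv₀, ← Algebra.smul_def,
    algebraMap_smul]

end field

/-- The element `g` has degree three over `k`. -/
theorem quad_indep {E : Type} [Field E] [Algebra k E] {σ : E} (hE : finrank k E = 3)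
    (hsp : ∀ x : E, ∃ a b c : k, x = algebraMap k E a + algebraMap k E b * σ +
        algebraMap k E c * σ ^ 2) {a b c : k}
    (h : algebraMap k E a + algebraMap k E b * σ + algebraMap k E c * σ ^ 2 = 0) :
    a = 0 ∧ b = 0 ∧ c = 0 := by
  have hfd : FiniteDimensional k E := FiniteDimensional.of_finrank_pos (by omega)
  have hspan : ⊤ ≤ Submodule.span k (Set.range ![(1 : E), σ, σ ^ 2]) := by
    intro x _
    obtain ⟨a, b, c, rfl⟩ := hsp x
    have h1 : ∀ i : Fin 3, (![(1 : E), σ, σ ^ 2]) i ∈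
        Submodule.span k (Set.range ![(1 : E), σ, σ ^ 2]) := fun i =>
      Submodule.subset_span (Set.mem_range_self i)
    have e0 : algebraMap k E a + algebraMap k E b * σ + algebraMap k E c * σ ^ 2 =
        a • (1 : E) + b • σ + c • σ ^ 2 := by
      rw [Algebra.smul_def, Algebra.smul_def, Algebra.smul_def, mul_one]
    rw [e0]
    exact add_mem (add_mem (Submodule.smul_mem _ _ (h1 0)) (Submodule.smul_mem _ _ (h1 1)))
      (Submodule.smul_mem _ _ (h1 2))
  have hli : LinearIndependent k ![(1 : E), σ, σ ^ 2] :=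
    linearIndependent_of_top_le_span_of_card_eq_finrank hspan (by rw [hE, Fintype.card_fin])
  rw [Fintype.linearIndependent_iff] at hli
  have h1 := hli ![a, b, c] (by
    rw [Fin.sum_univ_three]
    simp only [Matrix.cons_val_zero, Matrix.cons_val_one, Matrix.cons_val]
    rw [Algebra.smul_def, Algebra.smul_def, Algebra.smul_def, mul_one]
    exact h)
  exact ⟨h1 0, h1 1, h1 2⟩

/-- **Non-degeneracy of the form `r ↦ T (g p p adj r)` on `k(g)^⊥`**, `p = 1 + g / T (g²)`. -/
theorem nondegU {d : kˣ} {s : K} (hS : SetF k K D d s)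
    (hdeg : finrank K D = 3 ^ 2) (C : Cub K D) {g : D} (hg : star g = g)
    (hgc : ∀ c : K, g ≠ c • (1 : D)) (hgs : C.T g ≠ 0 ∨ C.S g ≠ 0)
    {r : D} (hr : star r = r) (hr0 : r ≠ 0) (h1 : C.T r = 0)
    (h2 : C.T (g * r) = 0) (h3 : C.T (g * g * r) = 0) :
    ∃ r' : D, star r' = r' ∧ C.T r' = 0 ∧ C.T (g * r') = 0 ∧ C.T (g * g * r') = 0 ∧
      C.T (g * pU C g * pU C g * C.cr r r') ≠ 0 := by
  obtain ⟨E, _, _, _, _, φ, σ, _, _, hσ, H, hsp⟩ := exists_cfdU hS hdeg C hg hgc hgs
  have hp0 : pU C g ≠ 0 := pU_ne_zero hgc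
  have hg0 : g ≠ 0 := fun h0 => hgc 0 (by rw [h0, zero_smul])
  obtain ⟨e, -, hq⟩ := exists_q H hσ
  have hc : φ (σ * (1 + algebraMap k E e * σ) * (1 + algebraMap k E e * σ)) =
      g * pU C g * pU C g := by
    rw [map_mul, map_mul, hq, hσ]
  have hc0 : σ * (1 + algebraMap k E e * σ) * (1 + algebraMap k E e * σ) ≠ 0 := by
    intro h
    rw [h, map_zero] at hc
    exact mul_ne_zero (mul_ne_zero hg0 hp0) hp0 hc.symm
  obtain ⟨r', hr', h⟩ := nondeg_of_cfdU H hc0 ((inV_iff H hσ hsp hr).2 ⟨h1, h2, h3⟩) hr0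
  have hr's : star r' = r' := star_of_sy1 hr'.sy
  obtain ⟨e1, e2, e3⟩ := (inV_iff H hσ hsp hr's).1 hr'
  exact ⟨r', hr's, e1, e2, e3, by rw [← hc]; exact h⟩

end Vale.Agent.P011.H871.U
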