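import Vale.Agent.P011.H775.Par

/-!
# The parametrisation of `V`, with an abstract twist constant

The same formulas as in `H775.Par`, without any hypothesis on `3`: the square of the twist
constant is an element `c` of the base field whose image in `F` is the quartic expression `MM`.
-/

set_option linter.unusedSectionVars false

open Module Polynomial Matrix

namespace Vale.Agent.P011.H775

variable {k K F D : Type} [Field k] [Field K] [Field F] [Algebra k K] [Algebra k F]

/-- The quartic expression whose conjugates are the squares of the twist constant. -/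
noncomputable def MM (k : Type) {F : Type} [Field k] [Field F] [Algebra k F] (f g : F) : F :=
  (algebraMap k F (Algebra.trace k F (f ^ 2)) - f ^ 2) *
      (algebraMap k F (Algebra.trace k F (g ^ 2)) - g ^ 2) -
    (algebraMap k F (Algebra.trace k F (f ^ 2 * g ^ 2)) - f ^ 2 * g ^ 2) -
    2 * ((f ^ 2 - algebraMap k F (Algebra.trace k F f) * f + algebraMap k F (e2 k f)) *
      (g ^ 2 - algebraMap k F (Algebra.trace k F g) * g + algebraMap k F (e2 k g)))

section ring

variable [Ring D] [Algebra k D] [Algebra K D]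

variable {C : Cub K D} {φ : F →ₐ[k] D} {Ω : Type} [Field Ω] [Algebra K Ω] (S : DSpl C φ Ω)

theorem DSpl.MM2 (h2 : (2 : k) ≠ 0) (f g : F) : S.σ 2 (MM k f g) = S.tc f g ^ 2 := by
  simp only [MM, map_sub, map_mul, map_add, map_pow, map_ofNat, S.base, S.trace_eq,
    S.e2_eq h2, DSpl.tc]
  ring

theorem DSpl.MM0 (h2 : (2 : k) ≠ 0) (f g : F) :
    S.σ 0 (MM k f g) = (S.σ 1 f * S.σ 2 g - S.σ 1 g * S.σ 2 f) ^ 2 := by
  simp only [MM, map_sub, map_mul, map_add, map_pow, map_ofNat, S.base, S.trace_eq,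
    S.e2_eq h2]
  ring

theorem DSpl.MM1 (h2 : (2 : k) ≠ 0) (f g : F) :
    S.σ 1 (MM k f g) = (S.σ 2 f * S.σ 0 g - S.σ 2 g * S.σ 0 f) ^ 2 := by
  simp only [MM, map_sub, map_mul, map_add, map_pow, map_ofNat, S.base, S.trace_eq,
    S.e2_eq h2]
  ring

theorem DSpl.tc_sqU (h2 : (2 : k) ≠ 0) {f g : F} {c : k} (hc : algebraMap k F c = MM k f g) :
    S.tc f g ^ 2 = algebraMap K Ω (algebraMap k K c) := by
  rw [← S.MM2 h2, ← hc, S.base]

end ring

section star

variable [StarRing K] [DivisionRing D] [StarRing D] [Algebra k D] [Algebra K D]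
  [FiniteDimensional K D] [Algebra.IsCentral K D] [IsScalarTower k K D]
  [FiniteDimensional k F] [Algebra.IsSeparable k F]

variable {C : Cub K D} {φ : F →ₐ[k] D} {p : D} (H : Cfd C φ p)

variable {δ : K} (hδ : star δ = -δ) {d : k} (hd : δ ^ 2 = algebraMap k K d) {f g : F}
  (hf : Algebra.trace k F f = 0) (hg : Algebra.trace k F g = 0) {c : k}
  (hc : algebraMap k F c = MM k f g)

include H hδ hf hg hd hc

/-- The diagonal of the adjoint. -/
theorem Cfd.pr_adj_parU {h : D} (hh : InV C φ p h) (w t : F) :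
    pr C φ (C.adj (par C φ δ f g h w t)) =
      (w ^ 2 - algebraMap k F (d * c) * t ^ 2) * pr C φ (C.adj h) := by
  obtain ⟨Ω, _, _, ⟨S⟩⟩ := H.exists_dspl
  have hv := H.par_inV hδ (f := f) (g := g) hh w t
  have hc := S.tc_sqU H.h2 hc
  have hd' := congrArg (algebraMap K Ω) hd
  rw [map_pow] at hd'
  apply (S.σ 0).injective
  rw [map_mul, map_sub, map_mul, map_pow, map_pow, S.base, S.pr_eq H (H.adj_sy' hv),
    S.pr_eq H (H.adj_sy' hh), (H.off S hv).adj_diag, (H.off S hh).adj_diag, xp_par S δ hf hg,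
    xm_par S δ hf hg, map_mul, map_mul, ← hc, ← hd']
  ring

/-- The norm of the twist. -/
theorem Cfd.N_twU {h : D} (hh : InV C φ p h) : C.N (tw φ δ f g h) ^ 2 =
    algebraMap k K ((d * c) ^ 3) *
      (C.N h ^ 2 + 4 * algebraMap k K (Algebra.norm k (pr C φ (C.adj h)))) := by
  obtain ⟨Ω, _, _, ⟨S⟩⟩ := H.exists_dspl
  have hc := S.tc_sqU H.h2 hc
  have hd' := congrArg (algebraMap K Ω) hd
  rw [map_pow] at hd'
  apply (algebraMap K Ω).injective
  rw [map_pow, (H.off S (H.tw_inV hδ f g hh)).N]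
  simp only [S.xp_tw δ hf hg, S.xm_tw δ hf hg, map_mul, map_add, map_pow, map_ofNat, ← hc, ← hd',
    (H.off S hh).N, S.norm_eq, S.pr_eq H (H.adj_sy' hh), (H.off S hh).adj_diag]
  ring

/-- The quadratic form, in the parameters. -/
theorem Cfd.T_mul_adj_parU {h : D} (hh : InV C φ p h) (w t : F) :
    algebraMap k K (d * c) * C.T (h * C.adj (par C φ δ f g h w t)) =
      algebraMap k K (d * c) * C.N h * algebraMap k K (e2 k w + d * c * e2 k t) +
        C.N (tw φ δ f g h) * algebraMap k K (e2p k w t) := by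
  obtain ⟨Ω, _, _, ⟨S⟩⟩ := H.exists_dspl
  have hc := S.tc_sqU H.h2 hc
  have hd' := congrArg (algebraMap K Ω) hd
  rw [map_pow] at hd'
  apply (algebraMap K Ω).injective
  have hv := H.par_inV hδ (f := f) (g := g) hh w t
  simp only [map_mul, map_add, S.e2_eq H.h2, S.e2p_eq, (H.off S hv).T_mul_adj (H.off S hh),
    (H.off S hh).N, (H.off S (H.tw_inV hδ f g hh)).N, xp_par S δ hf hg, xm_par S δ hf hg,
    S.xp_tw δ hf hg, S.xm_tw δ hf hg, ← hc, ← hd']
  ring

end star

end Vale.Agent.P011.H775
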