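import Vale.Agent.P011.H871.U.V0U
import Vale.Agent.P011.H871.U.AsmU
import Vale.Agent.P011.H271.WauF

/-!
# Assembly of Part I over function fields of odd characteristic: a `k`-point of `X_x`

(Copy of `H279/PartIF.lean`.)
-/

set_option linter.unusedSectionVars false

open Module QuadraticMap

namespace Vale.Agent.P011.H871.U

open Vale.Agent.P011.H738 Vale.Agent.P011.H271 Vale.Agent.P011.H775 Vale.Agent.P011.H948
open Vale.Agent.P011.H305 Vale.Agent.P011.H279.V0F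
open Vale.Agent.P011.H279.Asm (Chart)
open Vale.Agent.P011.H182 (na)

variable {k K D : Type} [Field k] [Field K] [StarRing K]
  [DivisionRing D] [StarRing D] [Algebra k K] [Algebra k D] [Algebra K D] [IsScalarTower k K D]
  {d : kˣ} {s : K} {N : ℕ}

/-- `r` lies in `V₀(g)` and `T (g p² r^#) = c`. -/
def ValU (C : Cub K D) (g r : D) (c : k) : Prop :=
  star r = r ∧ C.T r = 0 ∧ C.T (g * r) = 0 ∧ C.T (g * g * r) = 0 ∧
    C.T (g * pU C g * pU C g * C.adj r) = algebraMap k K c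

/-- `M` is the chart attached to `g, y, r`. -/
structure AdmU [FiniteDimensional K D] [Algebra.IsCentral K D] {F : Type} [Field F]
    [Algebra k F] [FiniteDimensional k F] [Algebra.IsSeparable k F] {C : Cub K D}
    {φ : F →ₐ[k] D} (d : kˣ) (s : K) (g y r : D) (σ : F) (M : DatU C φ) : Prop where
  hF : finrank k F = 3
  hσ : φ σ = r * (pU C g)⁻¹
  tr : Algebra.trace k F σ = 0
  a : M.a = σ
  b : M.b = bbU k σ
  c : M.c = ccU k σ
  p : M.p = pU C g
  g : M.g = g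
  y : M.y = y
  δ : M.δ = s
  d : M.d = (d : k)

/-- `rho` is a good point of the parameter quadric of `M`. -/
structure RhoU [FiniteDimensional K D] [Algebra.IsCentral K D] {F : Type} [Field F]
    [Algebra k F] [FiniteDimensional k F] [Algebra.IsSeparable k F] {C : Cub K D}
    {φ : F →ₐ[k] D} (M : DatU C φ) (z : F × k) : Prop where
  Q : M.Q z = 0
  pol : polar M.Q z (sh k M.a, 0) ≠ 0
  A : M.A z ≠ 0

/-- The statement at the finite places where `D` ramifies. -/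
def M8U (hS : SetF k K D d s) (C : Cub K D) (B : Basis (Fin N) k D)
    (Td P1 : Set (Place k))
    (G : ∀ (F : Type) [Field F] [Algebra k F], Place k → F → k → Prop) (x0 : D) : Prop :=
  ∃ u1 : D, u1 * star u1 = 1 ∧ ∃ ε : ℝ, 0 < ε ∧ ∀ x u : D, x * star x = 1 → u * star u = 1 →
    (∀ v ∈ P1, na B v.abv (x - x0) < ε) → (∀ v ∈ P1, na B v.abv (u - u1) < ε) →
    C.T ((x - 1) * u) ≠ 0 ∧ ∀ g y : D, Chart C s x u g y →
      (∀ c : K, g ≠ c • (1 : D)) ∧ OkG C g ∧ (Td.Nonempty →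
      ∃ z1 y1 : V0 hS C g, (∀ v ∈ Td, polar (qU hS C g) z1 y1 ≠ 0 ∧
        v.abv (qU hS C g z1 * qU hS C g y1) <
          v.abv (polar (qU hS C g) z1 y1) ^ 2) ∧
      ∃ ε' : ℝ, 0 < ε' ∧ ∀ r : V0 hS C g, qU hS C g r = 0 → (∀ v ∈ Td, ∃ t : k,
        v.abv t ≤ v.abv (qU hS C g z1 / polar (qU hS C g) z1 y1) ∧
        na B v.abv ((r : D) - z1 - t • (y1 : D)) < ε') →
      ∀ (F : Type) [Field F] [Algebra k F] [FiniteDimensional k F] [Algebra.IsSeparable k F]
        (φ : F →ₐ[k] D) (σ : F) [FiniteDimensional K D] [Algebra.IsCentral K D] (M : DatU C φ),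
        AdmU d s g y (r : D) σ M → ∃ z : F × k, RhoU M z ∧ ∀ v ∈ Td, G F v (M.A z) (M.G z))

/-- The data attached to a unitary element and an isotropic element. -/
def F1SU (C : Cub K D) (d : kˣ) (s : K) : Prop :=
  ∀ x u : D, u * star u = 1 → C.T ((x - 1) * u) ≠ 0 → ∃ g y : D, Chart C s x u g y ∧
    ∀ r : D, (∀ c : K, g ≠ c • (1 : D)) → OkG C g → ValU C g r (0 : k) →
      C.T (pU C g * C.adj r) ≠ 0 →
      ∃ (F : Type) (_ : Field F) (_ : Algebra k F) (_ : FiniteDimensional k F)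
        (_ : Algebra.IsSeparable k F) (φ : F →ₐ[k] D) (σ : F) (_ : FiniteDimensional K D)
        (_ : Algebra.IsCentral K D) (M : DatU C φ),
        AdmU d s g y r σ M ∧ ∀ z : F × k, z ≠ 0 → M.Q z = 0 → ∀ e : F,
          Algebra.norm k e + Algebra.trace k F (e * M.A z) + M.G z = 0 →
          ∃ w : D, w * star w = 1 ∧ C.T ((x - 1) * w) = 0

/-- The Skolem step. -/
def M10U (C : Cub K D) (d : kˣ) (s : K) (Td : Set (Place k))
    (G : ∀ (F : Type) [Field F] [Algebra k F], Place k → F → k → Prop) : Prop :=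
  ∀ (F : Type) [Field F] [Algebra k F] [FiniteDimensional k F] [Algebra.IsSeparable k F]
    (φ : F →ₐ[k] D) [FiniteDimensional K D] [Algebra.IsCentral K D] (M : DatU C φ),
    finrank k F = 3 →
    M.δ = s → M.d = (d : k) → ∀ z : F × k, RhoU M z → (∀ v ∈ Td, G F v (M.A z) (M.G z)) →
    ∃ z : F × k, z ≠ 0 ∧ M.Q z = 0 ∧ ∃ e : F,
      Algebra.norm k e + Algebra.trace k F (e * M.A z) + M.G z = 0

/-- **Part I from its pieces.** -/
theorem partI_ofU [GFF k] [Infinite k] (hS : SetF k K D d s) (hdeg : finrank K D = 3 ^ 2)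
    (C : Cub K D) (B : Basis (Fin N) k D) {Td P1 : Set (Place k)} (hP1 : P1.Finite)
    (hTd : Td ⊆ P1)
    {G : ∀ (F : Type) [Field F] [Algebra k F], Place k → F → k → Prop} {x0 : D}
    (h8 : M8U hS C B Td P1 G x0) (h1 : F1SU C d s) (h10 : M10U C d s Td G) :
    ∃ ε : ℝ, 0 < ε ∧ ∀ x : D, x * star x = 1 → (∀ v ∈ P1, na B v.abv (x - x0) < ε) →
      ∃ w : D, w * star w = 1 ∧ C.T ((x - 1) * w) = 0 := by
  classical
  have hst := hS.starModule
  have hA : Anis k K D 3 := hS.anis hdeg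
  obtain ⟨u1, hu1, ε1, hε1, h8⟩ := h8
  refine ⟨ε1, hε1, ?_⟩
  intro x hx hxP
  -- the element `u`
  obtain ⟨u, hu, huP1⟩ := WauF.wa_unitaryF hA B hP1 (u := fun _ => u1) (fun _ _ => hu1)
    (ε := fun _ => ε1) (fun _ => hε1)
  obtain ⟨hT, h8⟩ := h8 x u hx hu hxP huP1
  obtain ⟨g, y, hch, hM⟩ := h1 x u hu hT
  obtain ⟨hgc, hSg, h8⟩ := h8 g y hch
  have hg := hch.hg
  have hgs : C.T g ≠ 0 ∨ C.S g ≠ 0 := Or.inl (by rw [hch.Tg]; exact neg_ne_zero.2 one_ne_zero)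
  have hps : star (pU C g) = pU C g := pU_symm (scub hS hdeg C) hg
  have hfd : FiniteDimensional k D := finite_kD hS
  obtain ⟨p, hp, hpf⟩ := exists_rU hS hdeg C hg hgc hgs
  have hval : ∀ r : V0 hS C g, qU hS C g r = 0 → ValU C g (r : D) (0 : k) := fun r hr =>
    ⟨r.2.1, r.2.2.1, r.2.2.2.1, r.2.2.2.2, by rw [← qU_apply hS hdeg C hg, hr]⟩
  have hne' : ∀ r : V0 hS C g, qA hS C g (pU C g) r ≠ 0 →
      C.T (pU C g * C.adj (r : D)) ≠ 0 := fun r hr h0 => by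
    rw [← qA_apply hS hdeg C g hps, _root_.map_eq_zero] at h0
    exact hr h0
  by_cases hne : Td.Nonempty
  · obtain ⟨z1, y1, h1, ε', hε', h8⟩ := h8 hne
    obtain ⟨r, hrf, hr, hrT⟩ := exists_zero_naU B (qU hS C g) (qA hS C g (pU C g))
      (V0 hS C g).subtype
      (qU_nondeg hS hdeg C hg hgc hgs)
      ((by norm_num : 3 ≤ 6).trans (finrank_V0 hS hdeg C hg)) hp hpf (hP1.subset hTd)
      (fun _ => z1) (fun _ => y1) (fun v hv => (h1 v hv).1) (fun v hv => (h1 v hv).2)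
      (fun _ => ε') (fun _ _ => hε')
    obtain ⟨F, _, _, _, _, φ, σ, _, _, M, hMd, hw⟩ := hM r hgc hSg (hval r hr) (hne' r hrf)
    obtain ⟨z, hz, hzT⟩ := h8 r hr (fun v hv => by
      obtain ⟨t, ht, h⟩ := hrT v hv
      refine ⟨t, ht, ?_⟩
      rwa [map_sub, map_sub, map_smul] at h) F φ σ M hMd
    obtain ⟨z', hz0, hQ, e, he⟩ := h10 F φ M hMd.hF hMd.δ hMd.d z hz hzT
    exact hw z' hz0 hQ e he
  · obtain ⟨F, _, _, _, _, φ, σ, _, _, M, hMd, hw⟩ := hM p hgc hSg (hval p hp) (hne' p hpf)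
    obtain ⟨ρ, hρ, hρA, hρp⟩ := M.exists_good
    obtain ⟨z', hz0, hQ, e, he⟩ := h10 F φ M hMd.hF hMd.δ hMd.d ρ ⟨hρ, hρp, hρA⟩
      (fun v hv => absurd ⟨v, hv⟩ hne)
    exact hw z' hz0 hQ e he

end Vale.Agent.P011.H871.U
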