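import Mathlib.LinearAlgebra.QuadraticForm.Basic
import Mathlib.Algebra.Polynomial.Roots
import Mathlib.Tactic.LinearCombination
import Mathlib.Tactic.FieldSimp

/-!
# Isotropic vectors of a quadratic form outside a second quadric and a hyperplane
-/

open Module QuadraticMap Polynomial

namespace Vale.Agent.P011.H871.U

variable {k V : Type} [Field k] [AddCommGroup V] [Module k V]

/-- Two non-zero polynomials do not vanish simultaneously everywhere. -/
theorem exists_eval_ne [Infinite k] {P R : k[X]} (hP : P ≠ 0) (hR : R ≠ 0) :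
    ∃ t : k, P.eval t ≠ 0 ∧ R.eval t ≠ 0 := by
  by_contra hcon
  push Not at hcon
  apply mul_ne_zero hP hR
  apply Polynomial.funext
  intro t
  rw [eval_mul, eval_zero]
  by_cases h : P.eval t = 0
  · rw [h, zero_mul]
  · rw [hcon t h, mul_zero]

theorem polar_smul_smul (Q : QuadraticForm k V) (a b : k) (x y : V) :
    polar Q (a • x) (b • y) = a * b * polar Q x y := by
  rw [polar_smul_left, polar_smul_right, smul_eq_mul, smul_eq_mul, mul_assoc]

/-- The value on a sum. -/
theorem Q_add (Q : QuadraticForm k V) (x y : V) : Q (x + y) = Q x + Q y + polar Q x y := by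
  rw [polar]
  ring

/-- The value on a combination. -/
theorem Q_lin (Q : QuadraticForm k V) (a b : k) (x y : V) :
    Q (a • x + b • y) = a ^ 2 * Q x + b ^ 2 * Q y + a * b * polar Q x y := by
  rw [Q_add, QuadraticMap.map_smul, QuadraticMap.map_smul, polar_smul_smul, smul_eq_mul,
    smul_eq_mul]
  ring

/-- The standard parametrisation gives isotropic vectors. -/
theorem Q_par {Q : QuadraticForm k V} {r1 : V} (h1 : Q r1 = 0) (v : V) :
    Q (Q v • r1 + (-(polar Q r1 v)) • v) = 0 := by
  rw [Q_lin, h1]
  ring

/-- **An isotropic vector outside a second quadric.** -/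
theorem exists_iso_ne [Infinite k] {Q f : QuadraticForm k V} {r1 : V} (h1 : Q r1 = 0)
    (hy : ∃ y, polar f r1 y = 0 ∧ f y ≠ 0) (hv : ∃ v, polar f r1 v = 0 ∧ polar Q r1 v ≠ 0) :
    ∃ r, Q r = 0 ∧ f r ≠ 0 := by
  by_cases hf : f r1 ≠ 0
  · exact ⟨r1, h1, hf⟩
  push Not at hf
  obtain ⟨y, hy1, hy2⟩ := hy
  obtain ⟨v0, hv1, hv2⟩ := hv
  obtain ⟨t, ht1, ht2⟩ := exists_eval_ne
    (P := C (f y) + C (polar f y v0) * X + C (f v0) * X ^ 2)
    (R := C (polar Q r1 y) + C (polar Q r1 v0) * X) (by
      intro h
      apply hy2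
      have := congrArg (fun P => P.eval 0) h
      simpa using this) (by
      intro h
      apply hv2
      have h3 := congrArg (fun P => P.coeff 1) h
      simpa [coeff_C] using h3)
  simp only [eval_add, eval_mul, eval_C, eval_X, eval_pow] at ht1 ht2
  have e1 : f (y + t • v0) = f y + polar f y v0 * t + f v0 * t ^ 2 := by
    rw [Q_add, QuadraticMap.map_smul, polar_smul_right, smul_eq_mul, smul_eq_mul]
    ring
  have e2 : polar Q r1 (y + t • v0) = polar Q r1 y + polar Q r1 v0 * t := by
    rw [polar_add_right, polar_smul_right, smul_eq_mul, mul_comm t]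
  have e3 : polar f r1 (y + t • v0) = 0 := by
    rw [polar_add_right, polar_smul_right, hy1, hv1, smul_zero, add_zero]
  refine ⟨_, Q_par h1 (y + t • v0), ?_⟩
  rw [Q_lin, hf, e3, mul_zero, mul_zero, zero_add, add_zero, e1, e2]
  exact mul_ne_zero (pow_ne_zero 2 (neg_ne_zero.2 ht2)) ht1

/-- **An isotropic vector outside a second quadric and a hyperplane.** -/
theorem exists_iso_ne2 [Infinite k] {Q f : QuadraticForm k V} (l : V →ₗ[k] k) {ra rb : V}
    (ha : Q ra = 0) (hb : Q rb = 0) (hfa : f ra ≠ 0) (hlb : l rb ≠ 0)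
    (hw : ∃ w, polar Q ra w = 0 ∧ Q w ≠ 0) : ∃ r, Q r = 0 ∧ f r ≠ 0 ∧ l r ≠ 0 := by
  by_cases hla : l ra ≠ 0
  · exact ⟨ra, ha, hfa, hla⟩
  push Not at hla
  by_cases hp : polar Q ra rb = 0
  · obtain ⟨t, ht1, ht2⟩ := exists_eval_ne
      (P := C (f ra) + C (polar f ra rb) * X + C (f rb) * X ^ 2)
      (R := (X : k[X])) (by
        intro h
        apply hfa
        have := congrArg (fun P => P.eval 0) h
        simpa using this) X_ne_zero
    simp only [eval_add, eval_mul, eval_C, eval_X, eval_pow] at ht1 ht2
    refine ⟨ra + t • rb, ?_, ?_, ?_⟩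
    · rw [Q_add, QuadraticMap.map_smul, polar_smul_right, ha, hb, hp]
      simp
    · rw [Q_add, QuadraticMap.map_smul, polar_smul_right, smul_eq_mul, smul_eq_mul]
      convert ht1 using 1
      ring
    · rw [map_add, hla, zero_add, map_smul, smul_eq_mul]
      exact mul_ne_zero ht2 hlb
  · obtain ⟨w, hw1, hw2⟩ := hw
    set P := polar Q ra rb with hP
    -- `r = A + t B + t ^ 2 E`
    set A : V := Q w • ra with hA
    set B : V := polar Q w rb • ra + (-P) • w with hB
    set E : V := (-P) • rb with hE
    have key : ∀ t : k, Q (w + t • rb) • ra + (-(polar Q ra (w + t • rb))) • (w + t • rb) =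
        A + t • B + t ^ 2 • E := by
      intro t
      rw [Q_add, QuadraticMap.map_smul, hb, smul_zero, add_zero, polar_smul_right, smul_eq_mul,
        polar_add_right, hw1, zero_add, polar_smul_right, smul_eq_mul, ← hP, hA, hB, hE]
      module
    obtain ⟨t, ht1, ht2⟩ := exists_eval_ne
      (P := C (f A) + C (polar f A B) * X + C (f B + polar f A E) * X ^ 2 +
        C (polar f B E) * X ^ 3 + C (f E) * X ^ 4)
      (R := C (l A) + C (l B) * X + C (l E) * X ^ 2) (by
        intro h
        have h3 := congrArg (fun P => P.eval 0) h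
        simp only [eval_add, eval_mul, eval_C, eval_X, eval_pow, eval_zero] at h3
        have h4 : f A = 0 := by simpa using h3
        rw [hA, QuadraticMap.map_smul, smul_eq_mul] at h4
        exact mul_ne_zero (mul_ne_zero hw2 hw2) hfa h4) (by
        intro h
        have h3 := congrArg (fun P => P.coeff 2) h
        have h4 : l E = 0 := by
          simpa [coeff_C, coeff_X] using h3
        rw [hE, map_smul, smul_eq_mul] at h4
        exact mul_ne_zero (neg_ne_zero.2 hp) hlb h4)
    simp only [eval_add, eval_mul, eval_C, eval_X, eval_pow] at ht1 ht2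
    refine ⟨A + t • B + t ^ 2 • E, ?_, ?_, ?_⟩
    · rw [← key]
      exact Q_par ha _
    · clear_value A B E
      have e : f (A + t • B + t ^ 2 • E) = f A + polar f A B * t + (f B + polar f A E) * t ^ 2 +
          polar f B E * t ^ 3 + f E * t ^ 4 := by
        rw [Q_add, Q_add, QuadraticMap.map_smul f t B, QuadraticMap.map_smul f (t ^ 2) E,
          polar_smul_right, polar_smul_right, polar_add_left, polar_smul_left f t]
        simp only [smul_eq_mul]
        ring
      rw [e]
      exact ht1
    · have e : l (A + t • B + t ^ 2 • E) = l A + l B * t + l E * t ^ 2 := by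
        rw [map_add, map_add, l.map_smul t B, l.map_smul (t ^ 2) E, smul_eq_mul, smul_eq_mul]
        ring
      rw [e]
      exact ht2

end Vale.Agent.P011.H871.U
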