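import Vale.Agent.P011.H871.U.NdU
import Vale.Agent.P011.H871.U.QAv
import Vale.Agent.P011.H279.WaRF

/-!
The quadratic forms `T (a r^#)` on the space `V0` of symmetric `r` with
`T r = T (g r) = T (g g r) = 0`, in odd characteristic.
-/

open Module Polynomial Matrix QuadraticMap

set_option linter.unusedSectionVars false

namespace Vale.Agent.P011.H871.U

open Vale.Agent.P011.H738 Vale.Agent.P011.H271 Vale.Agent.P011.H775 Vale.Agent.P011.H948
open Vale.Agent.P011.H305 Vale.Agent.P011.H279.V0F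
open Vale.Agent.P011.H182 (na na_nonneg na_sum_le na_smul)

variable {k K D : Type} [Field k] [Field K] [StarRing K]
  [DivisionRing D] [StarRing D] [Algebra k K] [Algebra k D] [Algebra K D] [IsScalarTower k K D]
  {d : kˣ} {s : K}

/-- The quadratic form `T (a r^#)` on `V0`. -/
noncomputable def qA (hS : SetF k K D d s) (C : Cub K D) (g a : D) :
    QuadraticForm k (V0 hS C g) :=
  LinearMap.BilinMap.toQuadraticMap (LinearMap.mk₂ k
    (fun r r' : V0 hS C g => (2 : k)⁻¹ * rk k (C.T (a * C.cr (r : D) (r' : D))))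
    (fun r₁ r₂ r' => by
      rw [Submodule.coe_add, C.cr_add_left, mul_add, map_add, map_add, mul_add])
    (fun c r r' => by
      rw [Submodule.coe_smul, ← algebraMap_smul K c (r : D), C.cr_smul_left, mul_smul_comm,
        map_smul, algebraMap_smul, map_smul, smul_eq_mul, smul_eq_mul]
      ring)
    (fun r r₁ r₂ => by
      rw [Submodule.coe_add, C.cr_add_right, mul_add, map_add, map_add, mul_add])
    (fun c r r' => by
      rw [Submodule.coe_smul, ← algebraMap_smul K c (r' : D), C.cr_smul_right, mul_smul_comm,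
        map_smul, algebraMap_smul, map_smul, smul_eq_mul, smul_eq_mul]
      ring))

theorem qA_def (hS : SetF k K D d s) (C : Cub K D) (g a : D) (r : V0 hS C g) :
    qA hS C g a r = rk k (C.T (a * C.adj (r : D))) := by
  rw [qA, LinearMap.BilinMap.toQuadraticMap_apply, LinearMap.mk₂_apply, C.cr_self,
    mul_smul_comm, map_smul]
  have h2 : (2 : K) • C.T (a * C.adj (r : D)) = (2 : k) • C.T (a * C.adj (r : D)) := by
    rw [← algebraMap_smul K (2 : k), map_ofNat]
  rw [h2, map_smul, smul_eq_mul, ← mul_assoc, inv_mul_cancel₀ hS.two_ne, one_mul]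

/-- The polar form of `qA`. -/
theorem qA_polar (hS : SetF k K D d s) (C : Cub K D) (g a : D) (r r' : V0 hS C g) :
    QuadraticMap.polar (qA hS C g a) r r' = rk k (C.T (a * C.cr (r : D) (r' : D))) := by
  rw [QuadraticMap.polar, qA_def, qA_def, qA_def, Submodule.coe_add, C.adj_add, mul_add, mul_add,
    map_add, map_add, map_add, map_add]
  ring

theorem qA_apply (hS : SetF k K D d s) (hdeg : finrank K D = 3 ^ 2) (C : Cub K D) (g : D) {a : D}
    (ha : star a = a) (r : V0 hS C g) :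
    algebraMap k K (qA hS C g a r) = C.T (a * C.adj (r : D)) := by
  have h := scub hS hdeg C
  rw [qA_def, rk_eq hS (h.T_mul_symm ha (h.adj_symm r.2.1))]

theorem qA_polar_eq (hS : SetF k K D d s) (hdeg : finrank K D = 3 ^ 2) (C : Cub K D) (g : D)
    {a : D} (ha : star a = a) (r r' : V0 hS C g) :
    algebraMap k K (QuadraticMap.polar (qA hS C g a) r r') =
      C.T (a * C.cr (r : D) (r' : D)) := by
  have h := scub hS hdeg C
  rw [qA_polar, rk_eq hS (h.T_mul_symm ha (h.cr_symm r.2.1 r'.2.1))]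

/-- The element `g p p`. -/
def gaU (C : Cub K D) (g : D) : D := g * pU C g * pU C g

theorem gaU_symm (hS : SetF k K D d s) (hdeg : finrank K D = 3 ^ 2) (C : Cub K D) {g : D}
    (hg : star g = g) : star (gaU C g) = gaU C g := by
  have hp : star (pU C g) = pU C g := pU_symm (scub hS hdeg C) hg
  have hc : Commute g (pU C g) := pU_comm
  rw [gaU, star_mul, star_mul, hg, hp, mul_assoc g, (hc.mul_right hc).eq, ← hc.eq, mul_assoc,
    hc.eq]

/-- The quadratic form `T (g p p r^#)` on `V0`. -/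
noncomputable def qU (hS : SetF k K D d s) (C : Cub K D) (g : D) :
    QuadraticForm k (V0 hS C g) := qA hS C g (gaU C g)

theorem qU_apply (hS : SetF k K D d s) (hdeg : finrank K D = 3 ^ 2) (C : Cub K D) {g : D}
    (hg : star g = g) (r : V0 hS C g) :
    algebraMap k K (qU hS C g r) = C.T (g * pU C g * pU C g * C.adj (r : D)) :=
  qA_apply hS hdeg C g (gaU_symm hS hdeg C hg) r

theorem qU_polar_eq (hS : SetF k K D d s) (hdeg : finrank K D = 3 ^ 2) (C : Cub K D) {g : D}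
    (hg : star g = g) (r r' : V0 hS C g) :
    algebraMap k K (QuadraticMap.polar (qU hS C g) r r') =
      C.T (g * pU C g * pU C g * C.cr (r : D) (r' : D)) :=
  qA_polar_eq hS hdeg C g (gaU_symm hS hdeg C hg) r r'

/-- **Existence of an isotropic element.** -/
theorem exists_rA [GFF k] (hS : SetF k K D d s) (hdeg : finrank K D = 3 ^ 2) (C : Cub K D) {g : D}
    (hg : star g = g) (a : D) : ∃ r : V0 hS C g, r ≠ 0 ∧ qA hS C g a r = 0 := by
  have h3 : FiniteDimensional k D := finite_kD hS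
  have h6 := finrank_V0 hS hdeg C hg
  obtain ⟨F, _, _, φ, hφ1, hφ2⟩ := H271.GFF.out (k := k)
  let _ := φ.toAlgebra
  have : FiniteDimensional (RatFunc F) k := hφ1
  obtain ⟨x, hx0, hx⟩ := H228.exists_zero_bilin F (RatFunc F)
    (QuadraticMap.polarBilin (qA hS C g a)) (by rw [finrank_self]; omega)
  refine ⟨x, hx0, ?_⟩
  rw [QuadraticMap.polarBilin_apply_apply, QuadraticMap.polar_self, two_smul, ← two_mul] at hx
  exact (mul_eq_zero.mp hx).resolve_left hS.two_ne

section cfd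

variable [FiniteDimensional K D] [Algebra.IsCentral K D] {E : Type} [Field E] [Algebra k E]
  [FiniteDimensional k E] [Algebra.IsSeparable k E] {C : Cub K D} {φ : E →ₐ[k] D}

/-- The form attached to a non-zero element of the field is non-degenerate. -/
theorem qA_nondeg (hS : SetF k K D d s) (hdeg : finrank K D = 3 ^ 2) (H : Cfd C φ 1) {g : D}
    {σ : E} (hσ : φ σ = g) (hsp : ∀ x : E, ∃ a b c : k, x = algebraMap k E a +
      algebraMap k E b * σ + algebraMap k E c * σ ^ 2) {c : E} (hc : c ≠ 0) (r : V0 hS C g)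
    (hr : r ≠ 0) : ∃ r', polar (qA hS C g (φ c)) r r' ≠ 0 := by
  obtain ⟨r', h1, h2⟩ := nondeg_of_cfdU H hc
    ((H279.NdF.inV_iff H hσ hsp r.2.1).2 r.2.2) (fun h0 => hr (Subtype.ext h0))
  have hr's := star_of_sy1 h1.sy
  have h3 := (H279.NdF.inV_iff H hσ hsp hr's).1 h1
  refine ⟨⟨r', hr's, h3⟩, fun h0 => h2 ?_⟩
  have h4 := qA_polar_eq hS hdeg C g (star_φ1 H c) r ⟨r', hr's, h3⟩
  rw [h0, map_zero] at h4
  exact h4.symm

/-- Independence. -/
theorem qA_indep (hS : SetF k K D d s) (hdeg : finrank K D = 3 ^ 2) (H : Cfd C φ 1) {g : D}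
    {σ : E} (hσ : φ σ = g) (hsp : ∀ x : E, ∃ a b c : k, x = algebraMap k E a +
      algebraMap k E b * σ + algebraMap k E c * σ ^ 2) {c1 c2 : E} (hc : ∀ t : k, c1 ≠ t • c2)
    (hc2 : c2 ≠ 0) (r : V0 hS C g) (hr : r ≠ 0) :
    ∃ v, polar (qA hS C g (φ c2)) r v = 0 ∧ polar (qA hS C g (φ c1)) r v ≠ 0 := by
  obtain ⟨r', h1, h2, h5⟩ := exists_indep H hc hc2
    ((H279.NdF.inV_iff H hσ hsp r.2.1).2 r.2.2) (fun h0 => hr (Subtype.ext h0))
  have hr's := star_of_sy1 h1.sy
  have h3 := (H279.NdF.inV_iff H hσ hsp hr's).1 h1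
  refine ⟨⟨r', hr's, h3⟩, ?_, fun h0 => h5 ?_⟩
  · have h4 := qA_polar_eq hS hdeg C g (star_φ1 H c2) r ⟨r', hr's, h3⟩
    apply (algebraMap k K).injective
    rw [h4, map_zero]
    exact h2
  · have h4 := qA_polar_eq hS hdeg C g (star_φ1 H c1) r ⟨r', hr's, h3⟩
    rw [h0, map_zero] at h4
    exact h4.symm

/-- **An isotropic vector of the first form outside the second quadric.** -/
theorem exists_qA_ne [GFF k] [Infinite k] (hS : SetF k K D d s) (hdeg : finrank K D = 3 ^ 2)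
    (H : Cfd C φ 1) {g : D} (hg : star g = g)
    {σ : E} (hσ : φ σ = g) (hsp : ∀ x : E, ∃ a b c : k, x = algebraMap k E a +
      algebraMap k E b * σ + algebraMap k E c * σ ^ 2) {c1 c2 : E} (hc : ∀ t : k, c1 ≠ t • c2)
    (hc2 : c2 ≠ 0) : ∃ r, qA hS C g (φ c1) r = 0 ∧ qA hS C g (φ c2) r ≠ 0 := by
  have hfd : FiniteDimensional k D := finite_kD hS
  obtain ⟨r1, h0, h1⟩ := exists_rA hS hdeg C hg (φ c1)
  refine exists_iso_ne h1 ?_ (qA_indep hS hdeg H hσ hsp hc hc2 r1 h0)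
  exact H279.WaRF.exists_orth_of_nondeg _ (fun x hx => qA_nondeg hS hdeg H hσ hsp hc2 x hx)
    ((by norm_num : 3 ≤ 6).trans (finrank_V0 hS hdeg C hg)) h0

end cfd

section wa

variable {V : Type} [AddCommGroup V] [Module k V] {N : ℕ} (BD : Basis (Fin N) k D)

/-- **Weak approximation on a non-degenerate quadric**, outside a second quadric, with the
closeness measured in an algebra. -/
theorem exists_zero_naU [GFF k] [FiniteDimensional k V] (Q f : QuadraticForm k V)
    (L : V →ₗ[k] D)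
    (hnd : ∀ x : V, x ≠ 0 → ∃ y, polar Q x y ≠ 0) (hV : 3 ≤ finrank k V) {p : V}
    (hp : Q p = 0) (hf : f p ≠ 0) {T : Set (Place k)} (hT : T.Finite)
    (z y : Place k → V) (hP : ∀ v ∈ T, polar Q (z v) (y v) ≠ 0)
    (hN : ∀ v ∈ T, v.abv (Q (z v) * Q (y v)) < v.abv (polar Q (z v) (y v)) ^ 2)
    (ε : Place k → ℝ) (hε : ∀ v ∈ T, 0 < ε v) :
    ∃ ρ : V, f ρ ≠ 0 ∧ Q ρ = 0 ∧ ∀ v ∈ T, ∃ s : k,
      v.abv s ≤ v.abv (Q (z v) / polar Q (z v) (y v)) ∧
      na BD v.abv (L (ρ - z v - s • y v)) < ε v := by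
  classical
  have hp0 : p ≠ 0 := by
    rintro rfl
    exact hf (QuadraticMap.map_zero f)
  set B := finBasis k V with hB
  have h1 : ∀ v : Place k, ∃ γ : ℝ, 0 < γ ∧ (v ∈ T → ∀ x : V,
      (∀ i, v.abv (B.repr x i) < γ) → na BD v.abv (L x) < ε v) := by
    intro v
    by_cases hv : v ∈ T
    · obtain ⟨γ, hγ, h⟩ := H279.WaRF.exists_thr BD B L v (hε v hv)
      exact ⟨γ, hγ, fun _ => h⟩
    · exact ⟨1, one_pos, fun h => absurd h hv⟩
  choose γ hγ hγT using h1
  obtain ⟨g, hg⟩ := H167.RhoF.exists_poly f B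
  obtain ⟨ρ, hρ, hρT, hρi⟩ := H167.RhoF.exists_zero_near Q B hp (hnd p hp0)
    (H279.WaRF.exists_orth_of_nondeg Q hnd hV hp0) hT.toFinset z y
    (fun v hv => hP v (hT.mem_toFinset.mp hv)) (fun v hv => hN v (hT.mem_toFinset.mp hv)) γ
    (fun v _ => hγ v) g hp (hnd p hp0) (by rw [hg]; exact hf)
  refine ⟨ρ, by rwa [hg] at hρi, hρ, fun v hv => ?_⟩
  obtain ⟨s, hs, h⟩ := hρT v (hT.mem_toFinset.mpr hv)
  exact ⟨s, hs, hγT v hv _ h⟩

end wa

section final

variable {N : ℕ}

/-- The form `qU` is non-degenerate. -/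
theorem qU_nondeg (hS : SetF k K D d s) (hdeg : finrank K D = 3 ^ 2)
    (C : Cub K D) {g : D} (hg : star g = g) (hgc : ∀ c : K, g ≠ c • (1 : D))
    (hgs : C.T g ≠ 0 ∨ C.S g ≠ 0) (r : V0 hS C g)
    (hr : r ≠ 0) : ∃ r', polar (qU hS C g) r r' ≠ 0 := by
  obtain ⟨r', h1, h2, h3, h4, h5⟩ := nondegU hS hdeg C hg hgc hgs r.2.1
    (fun h0 => hr (Subtype.ext h0)) r.2.2.1 r.2.2.2.1 r.2.2.2.2
  refine ⟨⟨r', h1, h2, h3, h4⟩, fun h0 => h5 ?_⟩
  have h6 := qU_polar_eq hS hdeg C hg r ⟨r', h1, h2, h3, h4⟩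
  rw [h0, map_zero] at h6
  exact h6.symm

/-- **An isotropic vector of `qU` with `T (p r^#) ≠ 0`.** -/
theorem exists_rU [GFF k] [Infinite k] (hS : SetF k K D d s) (hdeg : finrank K D = 3 ^ 2)
    (C : Cub K D) {g : D} (hg : star g = g) (hgc : ∀ c : K, g ≠ c • (1 : D))
    (hgs : C.T g ≠ 0 ∨ C.S g ≠ 0) :
    ∃ r, qU hS C g r = 0 ∧ qA hS C g (pU C g) r ≠ 0 := by
  obtain ⟨E, _, _, _, _, φ, σ, _, _, hσ, H, hsp⟩ := exists_cfdU hS hdeg C hg hgc hgs
  have hE : finrank k E = 3 := H.hF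
  obtain ⟨e, he, hq⟩ := exists_q H hσ
  have hq0 : (1 + algebraMap k E e * σ) ≠ 0 := by
    intro h
    rw [h, map_zero] at hq
    exact pU_ne_zero hgc hq.symm
  have h1 := exists_qA_ne hS hdeg H hg hσ hsp
    (c1 := σ * (1 + algebraMap k E e * σ) * (1 + algebraMap k E e * σ))
    (c2 := 1 + algebraMap k E e * σ) (fun t ht => by
      rw [Algebra.smul_def] at ht
      have h2 := mul_right_cancel₀ hq0 ht
      have h3 := quad_indep hE hsp (a := -t) (b := 1) (c := e) (by
        rw [map_neg, ← h2, map_one]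
        ring)
      exact one_ne_zero h3.2.1) hq0
  rw [map_mul, map_mul, hq, hσ] at h1
  exact h1

end final

end Vale.Agent.P011.H871.U
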