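import Vale.Agent.P011.H279.StarF
import Vale.Agent.P011.H871.U.V0U

/-!
# An isotropic element orthogonal to the limit direction, odd characteristic

(Copy of the last theorem of `H279/StarF.lean`, with the additional condition `S r ≠ 0`.)
-/

set_option linter.unusedSectionVars false

open Module QuadraticMap

namespace Vale.Agent.P011.H871.U

open Vale.Agent.P011.H738 Vale.Agent.P011.H271 Vale.Agent.P011.H775 Vale.Agent.P011.H948
open Vale.Agent.P011.H305 Vale.Agent.P011.H279.V0F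

/-- An isotropic vector outside a hyperplane. -/
theorem exists_iso_lin {k V : Type} [Field k] [AddCommGroup V] [Module k V]
    {Q : QuadraticForm k V} {r1 : V} (h1 : Q r1 = 0) (l : V →ₗ[k] k)
    (hP : ∃ v, polar Q r1 v ≠ 0) (hl : ∃ v, l v ≠ 0) : ∃ r, Q r = 0 ∧ l r ≠ 0 := by
  by_cases h : l r1 ≠ 0
  · exact ⟨r1, h1, h⟩
  push Not at h
  obtain ⟨va, hva⟩ := hP
  obtain ⟨vb, hvb⟩ := hl
  obtain ⟨v, hv1, hv2⟩ : ∃ v, polar Q r1 v ≠ 0 ∧ l v ≠ 0 := by
    by_cases h2 : l va = 0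
    · by_cases h3 : polar Q r1 vb = 0
      · refine ⟨va + vb, ?_, ?_⟩
        · rw [polar_add_right, h3, add_zero]
          exact hva
        · rw [map_add, h2, zero_add]
          exact hvb
      · exact ⟨vb, h3, hvb⟩
    · exact ⟨va, hva, h2⟩
  refine ⟨_, Q_par h1 v, ?_⟩
  rw [map_add, map_smul, map_smul, h, smul_zero, zero_add, smul_eq_mul]
  exact mul_ne_zero (neg_ne_zero.2 hv1) hv2

variable {k K D : Type} [Field k] [Field K] [StarRing K]
  [DivisionRing D] [StarRing D] [Algebra k K] [Algebra k D] [Algebra K D] [IsScalarTower k K D]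
  {d : kˣ} {s : K}

/-- An element with trace zero and non-zero second coefficient is not central. -/
theorem noncentral_of_S (C : Cub K D) {g : D} (hT : C.T g = 0) (hS : C.S g ≠ 0) (c : K) :
    g ≠ c • (1 : D) := by
  intro h
  apply hS
  have h1 : C.T g = c * 3 := by rw [h, map_smul, C.T_one, smul_eq_mul]
  rw [hT] at h1
  rw [h, C.S_smul, Cub.S, C.adj_one, C.T_one]
  linear_combination (-c) * h1

/-- **The isotropic element attached to the limit direction.** -/
theorem exists_starU [GFF k] [Infinite k] (hS : SetF k K D d s) (hdeg : finrank K D = 3 ^ 2)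
    (C : Cub K D) {x0 w0 : D} (hx0 : x0 * star x0 = 1) (hw0 : w0 * star w0 = 1)
    (hT0 : C.T ((x0 - 1) * w0) = 0) (hN1 : x0 * w0 ≠ w0 * x0)
    (hN3 : C.T x0 + C.T (star x0) ≠ 6) :
    ∃ κ : K, κ ≠ 0 ∧ ∃ gs ys : D, gs = κ • ((x0 - 1) * w0) + star (κ • ((x0 - 1) * w0)) ∧
      ys = s⁻¹ • (κ • ((x0 - 1) * w0) - star (κ • ((x0 - 1) * w0))) ∧
      star gs = gs ∧ star ys = ys ∧ C.T gs = 0 ∧ C.T ys = 0 ∧
      (∀ c : K, gs ≠ c • (1 : D)) ∧ C.S gs ≠ 0 ∧
      ∃ r : D, star r = r ∧ C.S r ≠ 0 ∧ C.T r = 0 ∧ C.T (gs * r) = 0 ∧ C.T (gs * gs * r) = 0 ∧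
        C.T (gs * C.adj r) = 0 ∧ C.T (ys * r) ≠ 0 := by
  have h20 := two_neK hS
  have hs0 := s_ne_zero hS
  have hSc := scub hS hdeg C
  obtain ⟨κ, hκ, hSg⟩ := H279.M8a.exists_kap hS hdeg C hx0 hw0 hT0 hN3
  obtain ⟨m, hm⟩ : ∃ m, m = (x0 - 1) * w0 := ⟨_, rfl⟩
  rw [← hm] at hSg hT0
  have hcm : ¬ (m * star m = star m * m) := fun h => hN1 (by
    rw [hm] at h
    exact H279.StarF.comm_of_comm hS hdeg hx0 hw0 h)
  refine ⟨κ, hκ, κ • m + star (κ • m), s⁻¹ • (κ • m - star (κ • m)), by rw [hm], by rw [hm], ?_⟩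
  obtain ⟨gs, hgs⟩ : ∃ gs, gs = κ • m + star (κ • m) := ⟨_, rfl⟩
  obtain ⟨ys, hys⟩ : ∃ ys, ys = s⁻¹ • (κ • m - star (κ • m)) := ⟨_, rfl⟩
  rw [← hgs, ← hys]
  rw [← hgs] at hSg
  have hTs : C.T (star (κ • m)) = 0 := by rw [hSc.T, map_smul, hT0, smul_zero, star_zero]
  have hg : star gs = gs := by rw [hgs, star_add, star_star, add_comm]
  have hy : star ys = ys := by
    rw [hys, hS.star_smul, star_sub, star_star, star_inv₀, hS.star_s, inv_neg, neg_smul,
      ← smul_neg, neg_sub]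
  have hTg : C.T gs = 0 := by rw [hgs, map_add, map_smul, hT0, smul_zero, hTs, add_zero]
  have hTy : C.T ys = 0 := by
    rw [hys, map_smul, map_sub, map_smul, hT0, smul_zero, hTs, sub_zero, smul_zero]
  have hgc := noncentral_of_S C hTg hSg
  refine ⟨hg, hy, hTg, hTy, hgc, hSg, ?_⟩
  -- the field generated by `gs`
  obtain ⟨E, _, _, _, _, φ, σ, _, _, hσ, H, hsp⟩ := exists_cfdU hS hdeg C hg hgc (Or.inr hSg)
  have hgs0 : gs ≠ 0 := fun h0 => hgc 0 (by rw [h0, zero_smul])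
  have hσ0 : σ ≠ 0 := by
    rintro rfl
    exact hgs0 (by rw [← hσ, map_zero])
  have hfd : FiniteDimensional k D := finite_kD hS
  -- the linear form
  let l : V0 hS C gs →ₗ[k] k := (rk k).comp ((C.T.restrictScalars k).comp
    ((LinearMap.mulLeft k ys).comp (V0 hS C gs).subtype))
  have hl : ∀ r : V0 hS C gs, l r = rk k (C.T (ys * (r : D))) := fun r => rfl
  have hl' : ∀ r : V0 hS C gs, algebraMap k K (l r) = C.T (ys * (r : D)) := fun r => by
    rw [hl, rk_eq hS (hSc.T_mul_symm hy r.2.1)]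
  -- an element of the complement not orthogonal to `ys`
  obtain ⟨rb, hrb, hTb⟩ : ∃ r, InV C φ 1 r ∧ C.T (ys * r) ≠ 0 := by
    have hys1 : Sy 1 ys := sy1_of_star hy
    have hv : InV C φ 1 (ys - φ (pr C φ ys)) :=
      ⟨hys1.sub (H.hφ _), by rw [map_sub, H.pr_φ, sub_self]⟩
    have hv0 : ys - φ (pr C φ ys) ≠ 0 := by
      intro h0
      apply hcm
      have e1 : ys * gs = gs * ys := by
        rw [sub_eq_zero.1 h0, ← hσ, ← map_mul, ← map_mul, mul_comm]
      have e0 : s • ys = κ • m - star (κ • m) := by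
        rw [hys, smul_smul, mul_inv_cancel₀ hs0, one_smul]
      have e2 : (2 : K) • (κ • m) = gs + s • ys := by
        rw [e0, hgs, two_smul]
        abel
      have e3 : (2 : K) • star (κ • m) = gs - s • ys := by
        rw [e0, hgs, two_smul]
        abel
      have e4 : (gs + s • ys) * (gs - s • ys) = (gs - s • ys) * (gs + s • ys) := by
        rw [mul_sub, sub_mul, add_mul, mul_add, add_mul, mul_add, smul_mul_assoc, mul_smul_comm,
          e1]
        try abel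
      rw [← e2, ← e3, hS.star_smul, smul_smul, smul_smul, smul_mul_smul_comm,
        smul_mul_smul_comm, mul_comm (2 * star κ)] at e4
      exact smul_right_injective D (mul_ne_zero (mul_ne_zero h20 hκ)
        (mul_ne_zero h20 (star_ne_zero.2 hκ))) e4
    obtain ⟨r, hr, hTr⟩ := exists_T_neU H hv hv0
    refine ⟨r, hr, fun h0 => hTr ?_⟩
    rw [sub_mul, map_sub, h0, H.T_mul_pr hr.sy, hr.pr0, mul_zero, map_zero, map_zero, sub_zero]
  have hlv : ∃ v, l v ≠ 0 := by
    have hrs := star_of_sy1 hrb.sy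
    refine ⟨⟨rb, hrs, (H279.NdF.inV_iff H hσ hsp hrs).1 hrb⟩, fun h0 => hTb ?_⟩
    have h1 := hl' ⟨rb, hrs, (H279.NdF.inV_iff H hσ hsp hrs).1 hrb⟩
    rw [h0, map_zero] at h1
    exact h1.symm
  -- isotropic vectors
  have hφ1 : φ 1 = (1 : D) := map_one φ
  obtain ⟨ra, hra, hfa⟩ := exists_qA_ne hS hdeg H hg hσ hsp (c1 := σ) (c2 := 1) (fun t ht => by
    apply hgc (algebraMap k K t)
    rw [← hσ, ht, map_smul, map_one, algebraMap_smul]) one_ne_zero
  rw [hσ] at hra
  rw [hφ1] at hfa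
  have hnd : ∀ x : V0 hS C gs, x ≠ 0 → ∃ y, polar (qA hS C gs gs) x y ≠ 0 := fun x hx => by
    have h := qA_nondeg hS hdeg H hσ hsp hσ0 x hx
    rwa [hσ] at h
  have hra0 : ra ≠ 0 := by
    rintro rfl
    exact hfa (QuadraticMap.map_zero _)
  obtain ⟨rc, hrc, hlc⟩ := exists_iso_lin hra l (hnd ra hra0) hlv
  obtain ⟨r, h1, h2, h3⟩ := exists_iso_ne2 l hra hrc hfa hlc
    (H279.WaRF.exists_orth_of_nondeg _ hnd
      ((by norm_num : 3 ≤ 6).trans (finrank_V0 hS hdeg C hg)) hra0)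
  refine ⟨r, r.2.1, ?_, r.2.2.1, r.2.2.2.1, r.2.2.2.2, ?_, ?_⟩
  · intro h0
    apply h2
    apply (algebraMap k K).injective
    rw [qA_apply hS hdeg C gs (star_one D), one_mul, map_zero]
    exact h0
  · rw [← qA_apply hS hdeg C gs hg, h1, map_zero]
  · intro h0
    apply h3
    apply (algebraMap k K).injective
    rw [hl', h0, map_zero]

end Vale.Agent.P011.H871.U
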